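import Vale.Agent.P011.H732D.Alg
import Vale.Agent.P011.H167.CnB
import Vale.Agent.P011.Hey.Fin0

/-!
# The reduced norm of the elements of the circle
-/

open Module

set_option linter.unusedSectionVars false

namespace Vale.Agent.P011.H976.FF

open Vale.Agent.P011.H305 Vale.Agent.P011.H732D Vale.Agent.P011.H271
open Vale.Agent.P011.H63.FB (incF)
open Vale.Agent.P011.H872.FF (XaF IsCentF om kk)
open Vale.Agent.P011.W (HasNrd)

/-- The reduced norm of a scalar. -/
theorem hasNrd_scalar {K C : Type} [Field K] [DivisionRing C] [Algebra K C] {m : ℕ} (z : K) :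
    HasNrd K m (algebraMap K C z) (z ^ m) := by
  intro Ω _ _ f
  rw [f.commutes, Algebra.algebraMap_eq_smul_one, Matrix.det_smul_of_tower, Matrix.det_one,
    Fintype.card_fin, Algebra.smul_def, mul_one, map_pow]

section nrd

variable {k K D : Type} [Field k] [Field K] [StarRing K] [DivisionRing D] [StarRing D]
    [Algebra k K] [Algebra k D] [Algebra K D] [IsScalarTower k K D] {d : kˣ} {s : K} {t : D}
    {a : kˣ} {Ω : Type} [Field Ω] [Algebra K Ω] {m n : ℕ}

/-- The determinant of a conjugate. -/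
theorem det_conj (f : D →ₐ[K] Matrix (Fin n) (Fin n) Ω) {g : D} (hg : g ≠ 0) (x : D) :
    (f (g * x * g⁻¹)).det = (f x).det := by
  have h1 : (f g).det * (f g⁻¹).det = 1 := by
    rw [← Matrix.det_mul, ← map_mul, mul_inv_cancel₀ hg, map_one, Matrix.det_one]
  rw [map_mul, map_mul, Matrix.det_mul, Matrix.det_mul]
  linear_combination (f x).det * h1

theorem gg_conj (j : D) (μ : k) {g : D} (hg : g ≠ 0) :
    gg (g * j * g⁻¹) μ = g * gg j μ * g⁻¹ := by
  unfold gg
  rw [mul_add, mul_one, add_mul, mul_inv_cancel₀ hg, mul_smul_comm, smul_mul_assoc]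

section cent

variable {L K' C : Type} [Field L] [Algebra k L] [Field K'] [StarRing K'] [Algebra K K']
    [DivisionRing C] [StarRing C] [Algebra L K'] [Algebra L C] [Algebra K' C]
    [IsScalarTower L K' C] {T : L} {j : C →+* D}

theorem j_kk (h : IsCentF k K D L K' C t a T j) (c : k) :
    j (algebraMap K' C (kk k K K' c)) = algebraMap k D c := by
  rw [IsScalarTower.algebraMap_apply k K D]
  exact h.jK _

theorem j_om (h : IsCentF k K D L K' C t a T j) :
    j (algebraMap K' C (om K' s T)) = algebraMap K D s * t := by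
  rw [om, map_mul, map_mul, h.jK, ← IsScalarTower.algebraMap_apply L K' C, h.jT]

theorem norm_pq (hS : SetF k K D d s) (h : IsCentF k K D L K' C t a T j) (p u : k) :
    Algebra.norm K (kk k K K' p + kk k K K' u * om K' s T) =
      algebraMap k K (p ^ 2 - (a * d : k) * u ^ 2) := by
  have hTT : algebraMap L K' T * algebraMap L K' T = algebraMap K K' (algebraMap k K a) := by
    rw [← map_mul, h.sqT, h.comp]
  have h1 : kk k K K' p + kk k K K' u * om K' s T =
      algebraMap K K' (algebraMap k K p) +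
        algebraMap K K' (algebraMap k K u * s) * algebraMap L K' T := by
    rw [map_mul, om]
    change _ = kk k K K' p + kk k K K' u * _ * _
    ring
  rw [h1, Pow.norm_quad h.rkK hTT h.repK, mul_pow, hS.sq, map_sub, map_mul, map_mul, map_pow,
    map_pow]
  ring

theorem nrd_gg_cent [Infinite K] (hS : SetF k K D d s)
    (hSC : SetF L K' C (incF k L d) (algebraMap K K' s))
    (h : IsCentF k K D L K' C t a T j) (hn : n = 2 * m) (hdeg : finrank K D = n ^ 2)
    (hC : finrank K' C = m ^ 2) (f : D →ₐ[K] Matrix (Fin n) (Fin n) Ω) (μ : k) {g : D}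
    (hg : g ≠ 0) :
    (f (gg (g * (algebraMap K D s * t) * g⁻¹) μ)).det =
      algebraMap K Ω (algebraMap k K (1 - μ ^ 2 * (a * d : k))) ^ m := by
  have := hS.fin
  have := hS.cen
  have := hSC.fin
  have := hSC.cen
  have h1 : gg (algebraMap K D s * t) μ =
      j (algebraMap K' C (kk k K K' 1 + kk k K K' μ * om K' s T)) := by
    rw [map_add, map_mul, map_add, map_mul, j_kk h, j_kk h, j_om h, map_one]
    unfold gg
    rw [Algebra.smul_def]
  have h2 := Vale.Agent.P011.H167.Cn.hasNrd h hn hdeg hC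
    (hasNrd_scalar (C := C) (m := m) (kk k K K' 1 + kk k K K' μ * om K' s T))
  rw [gg_conj _ _ hg, det_conj f hg, h1, h2 Ω f, map_pow, norm_pq hS h, map_pow, one_pow,
    mul_comm (a * d : k)]

end cent

/-- **(R2c)** The reduced norm of `1 + μ j` for a conjugate `j` of `I`. -/
theorem nrd_gg [GFF k] (hS : SetF k K D d s) (ht : t ∈ XaF D a) (ha : ¬ IsSquare (a : k))
    (had : ¬ IsSquare ((a * d : kˣ) : k)) (hn : n = 2 * m) (hdeg : finrank K D = n ^ 2)
    (f : D →ₐ[K] Matrix (Fin n) (Fin n) Ω) {I : D} (hI : I = algebraMap K D s * t) (μ : k) {g : D}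
    (hg : g ≠ 0) :
    (f (gg (g * I * g⁻¹) μ)).det =
      algebraMap K Ω (algebraMap k K (1 - μ ^ 2 * (a * d : k))) ^ m := by
  obtain ⟨L, _, _, _, K', _, _, _, _, C, _, _, _, _, _, _, T, j, hSC, hC, h⟩ :=
    Vale.Agent.P011.H167.Cn.exists_isCentF hS ha had (m := m) (by rw [hdeg, hn]) ht
  have i1 : Infinite k := Vale.Agent.P011.Hey.gff_infinite k
  have : Infinite K := Infinite.of_injective _ (algebraMap k K).injective
  subst hI
  exact nrd_gg_cent hS hSC h hn hdeg hC f μ hg

end nrd

end Vale.Agent.P011.H976.FF
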