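import Vale.Agent.P011.H167.CnC
import Vale.Agent.P011.H511.HasseApproxF
import Vale.Agent.P011.H698.PlusOf
import Vale.Agent.P011.H732D.Spec

/-!
The doubling step over function fields: the elements of the centralizer of a symmetric square root
which are close to one, from an element of the same reduced norm in the subgroup.
-/

open Module Polynomial

set_option linter.unusedSectionVars false

namespace Vale.Agent.P011.H976.FF

open Vale.Agent.P011.H305 Vale.Agent.P011.H738 Vale.Agent.P011.H271 Vale.Agent.P011.H271.S3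
open Vale.Agent.P011.H872.FF Vale.Agent.P011.H182
open Vale.Agent.P011.H63.FB (incF)
open Vale.Agent.P011.W (HasNrd)
open Vale.Agent.P011.H698 (NearA Sm)
open Vale.Agent.P011.H732D (AbAtF ImF)

section est

variable {k D : Type} [Field k] [DivisionRing D] [StarRing D] [Algebra k D] {N : ℕ}
  (B : Basis (Fin N) k D)

/-- Quotients of elements close to one, the denominator being unitary. -/
theorem near_divF (hst : ∀ (c : k) (x : D), star (c • x) = c • star x) (a : AbsoluteValue k ℝ)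
    {ε : ℝ} (hε : 0 < ε) : ∃ ε' : ℝ, 0 < ε' ∧ ∀ x y : D, y * star y = 1 →
      na B a (x - 1) < ε' → na B a (y - 1) < ε' → na B a (x * y⁻¹ - 1) < ε := by
  obtain ⟨C, hC1, hCm, hCs⟩ := na_const B a hst
  have hC0 : 0 < C := by linarith
  have h1 := na_nonneg B a 1
  obtain ⟨W, hW⟩ : ∃ W : ℝ, W = C * (C * (na B a 1 + 1)) * 2 := ⟨_, rfl⟩
  have hW0 : 0 < W := by rw [hW]; positivity
  refine ⟨min 1 (ε / W), lt_min one_pos (by positivity), fun x y hy1 hx hy => ?_⟩
  have hy2 := hy.trans_le (min_le_left _ _)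
  have hx3 := hx.trans_le (min_le_right _ _)
  have hy3 := hy.trans_le (min_le_right _ _)
  have hyi : y⁻¹ = star y := (eq_inv_of_mul_eq_one_right hy1).symm
  have e : x * y⁻¹ - 1 = ((x - 1) - (y - 1)) * star y := by
    rw [hyi, sub_sub_sub_cancel_right, sub_mul, hy1]
  have hyn : na B a y ≤ na B a 1 + 1 := by
    have e1 : y = 1 + (y - 1) := by abel
    rw [e1]
    exact (na_add_le _ _ _ _).trans (by linarith)
  have hsn : na B a (star y) ≤ C * (na B a 1 + 1) :=
    (hCs y).trans (mul_le_mul_of_nonneg_left hyn hC0.le)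
  have h2 : na B a ((x - 1) - (y - 1)) < 2 * (ε / W) := by
    refine (na_sub_le _ _ _ _).trans_lt ?_
    linarith
  have h3 := na_nonneg B a ((x - 1) - (y - 1))
  rw [e]
  refine (hCm _ _).trans_lt ?_
  have h4 : C * na B a ((x - 1) - (y - 1)) * na B a (star y) ≤
      C * na B a ((x - 1) - (y - 1)) * (C * (na B a 1 + 1)) :=
    mul_le_mul_of_nonneg_left hsn (mul_nonneg hC0.le h3)
  refine h4.trans_lt ?_
  have h5 : C * na B a ((x - 1) - (y - 1)) * (C * (na B a 1 + 1)) =
      na B a ((x - 1) - (y - 1)) * (C * (C * (na B a 1 + 1))) := by ring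
  rw [h5]
  have h6 : 0 < C * (C * (na B a 1 + 1)) := by positivity
  calc na B a ((x - 1) - (y - 1)) * (C * (C * (na B a 1 + 1)))
      < 2 * (ε / W) * (C * (C * (na B a 1 + 1))) := mul_lt_mul_of_pos_right h2 h6
    _ = ε := by
      rw [hW]
      field_simp

/-- Coordinates and norms. -/
theorem na_of_smF {v : AbsoluteValue k ℝ} {ε : ℝ} (hε : 0 < ε) {x : D}
    (h : ∀ i, v (B.repr x i) < ε / (N + 1)) : na B v x < ε := by
  refine (na_le_of_coord B v (fun i => (h i).le)).trans_lt ?_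
  rw [mul_div_assoc', div_lt_iff₀ (by positivity)]
  nlinarith

end est

/-- **The last step of the doubling.** -/
theorem abAt_of_yF {m : ℕ} {k K D L K' C : Type} [Field k] [GFF k] [Field K] [StarRing K]
    [DivisionRing D] [StarRing D] [Algebra k K] [Algebra k D] [Algebra K D] [IsScalarTower k K D]
    [Field L] [GFF L] [Algebra k L] [Field K'] [StarRing K'] [Algebra K K'] [DivisionRing C]
    [StarRing C] [Algebra L K'] [Algebra L C] [Algebra K' C] [IsScalarTower L K' C]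
    [StarModule K' C] {d : kˣ} {s : K} {t : D} {a : kˣ} {T : L} {jC : C →+* D}
    (hS : SetF k K D d s) (hdeg : finrank K D = (2 * m) ^ 2)
    (hSC : SetF L K' C (incF k L d) (algebraMap K K' s)) (hdC : finrank K' C = m ^ 2)
    (h : IsCentF k K D L K' C t a T jC) {Ω : Type} [Field Ω] [Algebra K Ω]
    (f : D →ₐ[K] Matrix (Fin (2 * m)) (Fin (2 * m)) Ω) {N : ℕ}
    (B : Basis (Fin N) k D) (Q : Subgroup (SUA f)) [Q.Normal] (hi : Q.index ≠ 0)
    {Ω' : Type} [Field Ω'] [Algebra K' Ω'] (g : C →ₐ[K'] Matrix (Fin m) (Fin m) Ω') {M : ℕ}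
    (B' : Basis (Fin M) L C)
    (hMP : ∀ N' : Subgroup (SUA g), N'.Normal → N'.index ≠ 0 → NearA L K' g B' N')
    (hY : ∀ ε : ℝ, 0 < ε → ∀ S0 : Finset (Place k), ∃ S : Finset (Place k), ∃ η : ℝ, 0 < η ∧
      ∀ (x : C) (p u : k), x * star x = 1 →
        HasNrd K' m x (kk k K K' p + kk k K K' u * om K' s T) →
        p ^ 2 - (a * d : k) * u ^ 2 = 1 → (∀ v ∈ S, Sm B v η (jC x - 1)) →
        ∃ y : C, y * star y = 1 ∧ HasNrd K' m y (kk k K K' p + kk k K K' u * om K' s T) ∧
          jC y ∈ ImF Q ∧ ∀ v ∈ S0, Sm B v ε (jC y - 1)) :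
    AbAtF B f (ImF Q) t := by
  classical
  have i1 := hS.fin
  have i2 := hS.cen
  have i3 := hSC.fin
  have i4 := hSC.cen
  have hkinf : Infinite k := Vale.Agent.P011.Hey.gff_infinite k
  have hKinf : Infinite K := Infinite.of_injective _ (algebraMap k K).injective
  have hfL : FiniteDimensional k L := Module.finite_of_finrank_pos (by rw [h.rkL]; norm_num)
  have haL : Algebra.IsAlgebraic k L := Algebra.IsAlgebraic.of_finite k L
  obtain ⟨N', hN'n, hN'i, -, hN'⟩ := H167.Cn.exists_trace f g h rfl hdeg hdC Q hi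
  obtain ⟨T', -, η', hη', hPF⟩ := hMP N' hN'n hN'i
  choose ε₁ hε₁ hprod using fun w' : Place L =>
    near_divF B' (fun c x => hSC.star_smulk c x) w'.abv hη'
  choose ηd hηd hdown using fun v : Place k => H167.Cn.near_down h B B' v (ε := ε₁) hε₁
  have hbf : {v : Place k | ∃ V ∈ (T' : Set (Place L)), Ab V v}.Finite :=
    finite_below T'.finite_toSet
  obtain ⟨S0, hS0⟩ : ∃ S0 : Finset (Place k), ∀ v, v ∈ S0 ↔ ∃ V ∈ T', Ab V v :=
    ⟨hbf.toFinset, fun v => by rw [Set.Finite.mem_toFinset]; rfl⟩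
  obtain ⟨ε₂, hε₂, hε₂'⟩ := H167.Cn.exists_min_pos S0.finite_toSet (fun v => ηd v / (N + 1))
    fun v => div_pos (hηd v) (by positivity)
  obtain ⟨S, η, hη, hy⟩ := hY ε₂ hε₂ S0
  refine ⟨S ∪ S0, min η ε₂, lt_min hη hε₂, ?_⟩
  intro e₁ het hestar hedet hnear
  obtain ⟨x, rfl⟩ := (h.range e₁).mp het
  have hx1' : jC x * star (jC x) = 1 := mul_eq_one_comm.mp hestar
  have hx1 : x * star x = 1 := by
    apply h.inj
    rw [map_mul, h.star, map_one]
    exact hx1'
  obtain ⟨p, u, hpux, hpu1⟩ := H167.Cn.exists_pu hS hSC h rfl hdeg hdC f hx1 hedet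
  obtain ⟨y, hy1, hy2, hy3, hy4⟩ := hy x p u hx1 hpux hpu1 fun v hv i =>
    (hnear v (Finset.mem_union_left _ hv) i).trans_le (min_le_left _ _)
  have hy0 : y ≠ 0 := left_ne_zero_of_mul_eq_one hy1
  have hx0 : x ≠ 0 := left_ne_zero_of_mul_eq_one hx1
  have hone : HasNrd K' m (1 : C) 1 := fun Ω _ _ f => by
    rw [map_one, map_one, Matrix.det_one]
  have hν0 : kk k K K' p + kk k K K' u * om K' s T ≠ 0 := by
    intro h0
    rw [h0] at hpux
    have h2 := hpux.mul (hpux.inv hx0)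
    rw [mul_inv_cancel₀ hx0, zero_mul] at h2
    exact one_ne_zero (W.HasNrd.unique hdC hone h2)
  have hyi : star y = y⁻¹ := eq_inv_of_mul_eq_one_right hy1
  have hzG1 : (x * y⁻¹) * star (x * y⁻¹) = 1 := by
    rw [← hyi, star_mul, star_star, mul_assoc, ← mul_assoc (star y), hyi,
      inv_mul_cancel₀ hy0, one_mul, hx1]
  have hzG2 : (g (x * y⁻¹)).det = 1 := by
    have h2 := hpux.mul (hy2.inv hy0)
    rw [mul_inv_cancel₀ hν0] at h2
    have h3 := h2 _ g
    rwa [map_one] at h3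
  have hz0 : x * y⁻¹ ≠ 0 := left_ne_zero_of_mul_eq_one hzG1
  have hzN : (⟨Units.mk0 _ hz0, hzG1, hzG2⟩ : SUA g) ∈ N' := by
    refine hPF _ fun w' hw' i => ?_
    obtain ⟨v, hwv⟩ := H511.FF.exists_below_ab (k := k) w'
    have hv : v ∈ S0 := (hS0 v).mpr ⟨w', hw', hwv⟩
    have h1 : na B v.abv (jC (x - 1)) < ηd v := by
      rw [map_sub, map_one]
      refine na_of_smF B (hηd v) fun i => ?_
      exact (hnear v (Finset.mem_union_right _ hv) i).trans_le
        ((min_le_right _ _).trans (hε₂' v hv))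
    have h2 : na B v.abv (jC (y - 1)) < ηd v := by
      rw [map_sub, map_one]
      refine na_of_smF B (hηd v) fun i => ?_
      exact (hy4 v hv i).trans_le (hε₂' v hv)
    have h3 := hprod w' x y hy1 (hdown v _ h1 w' hwv) (hdown v _ h2 w' hwv)
    exact (coord_le_na B' w'.abv _ i).trans_lt h3
  have hzI : x * y⁻¹ ∈ H167.Cn.ImA N' := ⟨_, hzN, rfl⟩
  obtain ⟨gz, hgz, hgze⟩ := ((hN' _).mp hzI).2.2
  obtain ⟨gy, hgy, hgye⟩ := hy3
  refine ⟨gz * gy, Q.mul_mem hgz hgy, ?_⟩
  change ((gz : Dˣ) : D) * ((gy : Dˣ) : D) = _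
  rw [hgze, hgye, ← map_mul, inv_mul_cancel_right₀ hy0]

end Vale.Agent.P011.H976.FF
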