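import Vale.Agent.P011.H976.FF.Frame2
import Vale.Agent.P011.H976.FF.AbOfYF
import Vale.Agent.P011.H961.StepF

/-!
# The base of the doubling over function fields: the centralizer has degree two

The elements of reduced norm one of the special unitary group of an algebra of degree two which are
close to one belong to every set which contains the elements close to one of the quaternion
subalgebras.
-/

open Module

set_option linter.unusedSectionVars false

namespace Vale.Agent.P011.H976.FF

open Vale.Agent.P011.H305 Vale.Agent.P011.H738 Vale.Agent.P011.H271 Vale.Agent.P011.H271.S3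
open Vale.Agent.P011.H872.FF Vale.Agent.P011.H182 Vale.Agent.P011.H961
open Vale.Agent.P011.Arith (NF)
open Vale.Agent.P011.H63.FB (incF LSF)
open Vale.Agent.P011.H961.SF (bad_finiteF)
open Vale.Agent.P011.W (HasNrd)
open Vale.Agent.P011.H698 (NearA Sm)
open Vale.Agent.P011.H732D (AbAtF ImF HQ1F)

section near

variable {k D L K' C : Type} [Field k] [GFF k] [DivisionRing D] [StarRing D] [Algebra k D]
    [Field L] [GFF L] [Algebra k L] [FiniteDimensional k L] [Field K'] [StarRing K']
    [DivisionRing C] [StarRing C] [Algebra L K'] [Algebra L C] [Algebra K' C]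
    [IsScalarTower L K' C]

/-- **The elements close to one of an algebra of degree two.** -/
theorem near_twoF (h2 : (2 : k) ≠ 0) (hSG : SetG L K' C) [FiniteDimensional L K']
    (hd : finrank K' C = 2 ^ 2) {N : ℕ} (B : Basis (Fin N) k D)
    (hst : ∀ (c : k) (x : D), star (c • x) = c • star x) (jC : C →+* D)
    (hjinj : Function.Injective jC) (hjs : ∀ x, jC (star x) = star (jC x))
    (hjk : ∀ c : k, jC (algebraMap L C (algebraMap k L c)) = algebraMap k D c) {M : Set D}
    {T : Finset (Place k)} {ε0 : ℝ} (hε0 : 0 < ε0) (hQ : HQ1F B M T ε0) :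
    ∃ (S : Finset (Place k)) (η : ℝ), 0 < η ∧ ∀ x : C, x * star x = 1 → HasNrd K' 2 x 1 →
      (∀ v ∈ S, Sm B v η (jC x - 1)) → jC x ∈ M := by
  classical
  have i2 := hSG.fin
  have i3 := hSG.cen
  have i4 : FiniteDimensional L C := Module.Finite.trans K' C
  have haL : Algebra.IsAlgebraic k L := Algebra.IsAlgebraic.of_finite k L
  have h2L : (2 : L) ≠ 0 := by
    have h1 := (map_ne_zero (algebraMap k L)).mpr h2
    rwa [map_ofNat] at h1
  obtain ⟨s⟩ := Vale.Agent.P011S.exists_split (K := K') (D := C) hd (AlgebraicClosure K')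
  obtain ⟨α, β, i, j, hsi, hsj, hii, hjj, hij, hfr⟩ := Two.frame hSG hd h2L s
  have hcomL : ∀ (c : L) (x : C), algebraMap L C c * x = x * algebraMap L C c := fun c x =>
    Algebra.commutes c x
  have hstL : ∀ c : L, star (algebraMap L C c) = algebraMap L C c := hSG.star_algebraMapk
  -- the embedding
  let ι : L →ₐ[k] D :=
    { jC.comp (algebraMap L C) with
      commutes' := fun c => hjk c }
  have hι : ∀ c : L, ι c = jC (algebraMap L C c) := fun c => rfl
  have hfrD : QFrF ι α β (jC i) (jC j) :=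
    { sym := fun c => by rw [hι, ← hjs, hstL]
      si := by rw [← hjs, hsi, map_neg]
      sj := by rw [← hjs, hsj, map_neg]
      ii := by rw [← map_mul, hii, hι]
      jj := by rw [← map_mul, hjj, hι]
      ij := by rw [← map_mul, ← map_mul, ← map_neg, hij]
      ci := fun c => by rw [hι, ← map_mul, ← map_mul, hcomL]
      cj := fun c => by rw [hι, ← map_mul, ← map_mul, hcomL] }
  obtain ⟨B', -⟩ : ∃ B' : Basis (Fin (finrank L C)) L C, B' = finBasis L C := ⟨_, rfl⟩
  -- one place
  have hone : ∀ w : Place L, 0 < na B' w.abv (1 : C) := fun w => na_pos B' w.abv one_ne_zero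
  choose ηd hηd hdown using fun v : Place k =>
    H167.Cn.near_down_aux (L := L) B B' jC hjinj hjk v (ε := fun w => na B' w.abv (1 : C)) hone
  have hloc : ∀ v : Place k, ∃ η : ℝ, 0 < η ∧ ∀ (x : C) (p : L),
      x + star x = algebraMap L C (2 * p) → na B v.abv (jC x - 1) < η →
      ∀ w : Place L, Ab w v → w.abv (2 - 2 * p) < 1 := by
    intro v
    obtain ⟨c, hc1, -, hcs⟩ := na_const B v.abv hst
    refine ⟨ηd v / (1 + c), div_pos (hηd v) (by linarith), fun x p hx hn w hw => ?_⟩
    have e1 : algebraMap L C (2 - 2 * p) = (1 - x) + star (1 - x) := by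
      rw [star_sub, star_one, map_sub, ← hx, map_ofNat]
      have e2 : (2 : C) = 1 + 1 := one_add_one_eq_two.symm
      rw [e2]
      abel
    have h1 : na B v.abv (jC (algebraMap L C (2 - 2 * p))) < ηd v := by
      rw [e1, map_add, hjs, map_sub, map_one]
      have h3 : na B v.abv (1 - jC x) < ηd v / (1 + c) := by rwa [na_sub_comm]
      have h4 := hcs (1 - jC x)
      have h5 := na_add_le B v.abv (1 - jC x) (star (1 - jC x))
      have h6 : (1 + c) * na B v.abv (1 - jC x) < ηd v := by
        rwa [lt_div_iff₀ (by linarith), mul_comm] at h3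
      linarith
    have h7 := hdown v _ h1 w hw
    rw [Algebra.algebraMap_eq_smul_one, na_smul] at h7
    by_contra hcon
    push Not at hcon
    have h8 := mul_le_mul_of_nonneg_right hcon (hone w).le
    linarith
  choose η1 hη1 hη1' using hloc
  -- the places
  have hbad := bad_finiteF h2L α β
  have hbf : {v : Place k | ∃ V ∈ {ω : Place L | (β : Lˣ) ∉ NF α ⊔ LSF ω}, Ab V v}.Finite :=
    finite_below hbad
  obtain ⟨S, hS⟩ : ∃ S : Finset (Place k), S = T ∪ hbf.toFinset := ⟨_, rfl⟩
  obtain ⟨η2, hη2, hη2'⟩ := H167.Cn.exists_min_pos S.finite_toSet (fun v => η1 v / (N + 1))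
    fun v => div_pos (hη1 v) (by positivity)
  refine ⟨S, min ε0 η2, lt_min hε0 hη2, fun x hx hnrd hnear => ?_⟩
  obtain ⟨p0, p1, p2, p3, hnrm, hxe⟩ := hfr x hx (by
    have h1 := hnrd _ s
    rwa [map_one] at h1)
  have hstx : x + star x = algebraMap L C (2 * p0) := by
    have hsij : star (i * j) = -(i * j) := by
      rw [star_mul, hsi, hsj, neg_mul_neg, hij, neg_neg]
    have hsu : star x = algebraMap L C p0 - algebraMap L C p1 * i - algebraMap L C p2 * j -
        algebraMap L C p3 * (i * j) := by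
      rw [hxe, star_add, star_add, star_add, hstL, star_mul, star_mul, star_mul, hstL,
        hstL, hstL, hsi, hsj, hsij, neg_mul, neg_mul, neg_mul, ← hcomL, ← hcomL, ← hcomL]
      abel
    rw [hsu, hxe, map_mul, map_ofNat, two_mul]
    abel
  refine hQ L ι α β (jC i) (jC j) p0 p1 p2 p3 (jC x) ⟨hfrD, hnrm, ?_⟩ ?_ ?_
  · rw [hxe]
    simp only [map_add, map_mul, hι]
  · intro v hv l
    refine (hnear v ?_ l).trans_le (min_le_left _ _)
    rw [hS]
    exact Finset.mem_union_left _ hv
  · intro ω hω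
    obtain ⟨v, hωv⟩ := H511.FF.exists_below_ab (k := k) ω
    have hv : v ∈ S := by
      rw [hS]
      exact Finset.mem_union_right _ (hbf.mem_toFinset.mpr ⟨ω, hω, hωv⟩)
    refine hη1' v x p0 hstx ?_ ω hωv
    refine na_of_smF B (hη1 v) fun l => ?_
    exact ((hnear v hv l).trans_le (min_le_right _ _)).trans_le (hη2' v hv)

end near

/-- **The last step of the doubling, for a centralizer of degree two.** -/
theorem abAt_of_y_two {k K D L K' C : Type} [Field k] [GFF k] [Field K] [StarRing K]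
    [DivisionRing D] [StarRing D] [Algebra k K] [Algebra k D] [Algebra K D] [IsScalarTower k K D]
    [Field L] [GFF L] [Algebra k L] [Field K'] [StarRing K'] [Algebra K K'] [DivisionRing C]
    [StarRing C] [Algebra L K'] [Algebra L C] [Algebra K' C] [IsScalarTower L K' C]
    [StarModule K' C] {d : kˣ} {s : K} {t : D} {a : kˣ} {T : L} {jC : C →+* D} (h2 : (2 : k) ≠ 0)
    (hS : SetF k K D d s) (hdeg : finrank K D = (2 * 2) ^ 2)
    (hSC : SetF L K' C (incF k L d) (algebraMap K K' s)) (hdC : finrank K' C = 2 ^ 2)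
    (h : IsCentF k K D L K' C t a T jC) {Ω : Type} [Field Ω] [Algebra K Ω]
    (f : D →ₐ[K] Matrix (Fin (2 * 2)) (Fin (2 * 2)) Ω) {N : ℕ}
    (B : Basis (Fin N) k D) (Q : Subgroup (SUA f))
    {T0 : Finset (Place k)} {ε0 : ℝ} (hε0 : 0 < ε0) (hQ : HQ1F B (ImF Q) T0 ε0)
    (hY : ∀ ε : ℝ, 0 < ε → ∀ S0 : Finset (Place k), ∃ S : Finset (Place k), ∃ η : ℝ, 0 < η ∧
      ∀ (x : C) (p u : k), x * star x = 1 →
        HasNrd K' 2 x (kk k K K' p + kk k K K' u * om K' s T) →
        p ^ 2 - (a * d : k) * u ^ 2 = 1 → (∀ v ∈ S, Sm B v η (jC x - 1)) →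
        ∃ y : C, y * star y = 1 ∧ HasNrd K' 2 y (kk k K K' p + kk k K K' u * om K' s T) ∧
          jC y ∈ ImF Q ∧ ∀ v ∈ S0, Sm B v ε (jC y - 1)) :
    AbAtF B f (ImF Q) t := by
  classical
  have i1 := hS.fin
  have i2 := hS.cen
  have i3 := hSC.fin
  have i4 := hSC.cen
  have hkinf : Infinite k := Vale.Agent.P011.Hey.gff_infinite k
  have hKinf : Infinite K := Infinite.of_injective _ (algebraMap k K).injective
  have hfL : FiniteDimensional k L := Module.finite_of_finrank_pos (by rw [h.rkL]; norm_num)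
  have hfK : FiniteDimensional L K' := Module.finite_of_finrank_pos (by rw [hSC.rank]; norm_num)
  obtain ⟨S1, η1, hη1, H⟩ := near_twoF h2 (toG hSC) hdC B (fun c x => hS.star_smulk c x) jC h.inj
    h.star h.jk hε0 hQ
  choose ε₁ hε₁ hprod using fun v : Place k =>
    near_divF B (fun c x => hS.star_smulk c x) v.abv hη1
  obtain ⟨ε₂, hε₂, hε₂'⟩ := H167.Cn.exists_min_pos S1.finite_toSet (fun v => ε₁ v / (N + 1))
    fun v => div_pos (hε₁ v) (by positivity)
  obtain ⟨S, η, hη, hy⟩ := hY ε₂ hε₂ S1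
  refine ⟨S ∪ S1, min η ε₂, lt_min hη hε₂, ?_⟩
  intro e₁ het hestar hedet hnear
  obtain ⟨x, rfl⟩ := (h.range e₁).mp het
  have hx1' : jC x * star (jC x) = 1 := mul_eq_one_comm.mp hestar
  have hx1 : x * star x = 1 := by
    apply h.inj
    rw [map_mul, h.star, map_one]
    exact hx1'
  obtain ⟨p, u, hpux, hpu1⟩ := H167.Cn.exists_pu hS hSC h rfl hdeg hdC f hx1 hedet
  obtain ⟨y, hy1, hy2, hy3, hy4⟩ := hy x p u hx1 hpux hpu1 fun v hv i =>
    (hnear v (Finset.mem_union_left _ hv) i).trans_le (min_le_left _ _)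
  have hy0 : y ≠ 0 := left_ne_zero_of_mul_eq_one hy1
  have hx0 : x ≠ 0 := left_ne_zero_of_mul_eq_one hx1
  have hone : HasNrd K' 2 (1 : C) 1 := fun Ω _ _ f => by
    rw [map_one, map_one, Matrix.det_one]
  have hν0 : kk k K K' p + kk k K K' u * om K' s T ≠ 0 := by
    intro h0
    rw [h0] at hpux
    have h2 := hpux.mul (hpux.inv hx0)
    rw [mul_inv_cancel₀ hx0, zero_mul] at h2
    exact one_ne_zero (W.HasNrd.unique hdC hone h2)
  have hyi : star y = y⁻¹ := eq_inv_of_mul_eq_one_right hy1
  have hzG1 : (x * y⁻¹) * star (x * y⁻¹) = 1 := by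
    rw [← hyi, star_mul, star_star, mul_assoc, ← mul_assoc (star y), hyi,
      inv_mul_cancel₀ hy0, one_mul, hx1]
  have hzG2 : HasNrd K' 2 (x * y⁻¹) 1 := by
    have h2 := hpux.mul (hy2.inv hy0)
    rwa [mul_inv_cancel₀ hν0] at h2
  have hjy : jC y * star (jC y) = 1 := by rw [← h.star, ← map_mul, hy1, map_one]
  have hzN : jC (x * y⁻¹) ∈ ImF Q := by
    refine H _ hzG1 hzG2 fun v hv i => ?_
    have h1 : na B v.abv (jC x - 1) < ε₁ v := by
      refine na_of_smF B (hε₁ v) fun i => ?_
      exact (hnear v (Finset.mem_union_right _ hv) i).trans_le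
        ((min_le_right _ _).trans (hε₂' v hv))
    have h2 : na B v.abv (jC y - 1) < ε₁ v := by
      refine na_of_smF B (hε₁ v) fun i => ?_
      exact (hy4 v hv i).trans_le (hε₂' v hv)
    have h3 := hprod v (jC x) (jC y) hjy h1 h2
    rw [← map_inv₀ jC, ← map_mul] at h3
    exact (coord_le_na B v.abv _ i).trans_lt h3
  obtain ⟨gz, hgz, hgze⟩ := hzN
  obtain ⟨gy, hgy, hgye⟩ := hy3
  refine ⟨gz * gy, Q.mul_mem hgz hgy, ?_⟩
  change ((gz : Dˣ) : D) * ((gy : Dˣ) : D) = _
  rw [hgze, hgye, ← map_mul, inv_mul_cancel_right₀ hy0]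

end Vale.Agent.P011.H976.FF
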