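import Vale.Agent.P011.H976.FF.AbOfYF

/-!
Two rotations in the subgroup which carry `I` to `x I x⁻¹` and the statement on the centralizer
give the membership of `x`.
-/

open Module Polynomial

set_option linter.unusedSectionVars false

namespace Vale.Agent.P011.H976.FF

open Vale.Agent.P011.H305 Vale.Agent.P011.H738 Vale.Agent.P011.H271
open Vale.Agent.P011.H872.FF Vale.Agent.P011.H182
open Vale.Agent.P011.H698 (Sm)
open Vale.Agent.P011.H732D (AbAtF ImF)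

section est

variable {k D : Type} [Field k] [DivisionRing D] [StarRing D] [Algebra k D] {N : ℕ}
  (B : Basis (Fin N) k D)

/-- Left quotients of elements close to one, the denominator being unitary. -/
theorem near_ldivF (hst : ∀ (c : k) (x : D), star (c • x) = c • star x) (a : AbsoluteValue k ℝ)
    {ε : ℝ} (hε : 0 < ε) : ∃ ε' : ℝ, 0 < ε' ∧ ∀ x y : D, star y * y = 1 →
      na B a (x - 1) < ε' → na B a (y - 1) < ε' → na B a (y⁻¹ * x - 1) < ε := by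
  obtain ⟨C, hC1, hCm, hCs⟩ := na_const B a hst
  have hC0 : 0 < C := by linarith
  have h1 := na_nonneg B a 1
  obtain ⟨W, hW⟩ : ∃ W : ℝ, W = C * (C * (na B a 1 + 1)) * 2 := ⟨_, rfl⟩
  have hW0 : 0 < W := by rw [hW]; positivity
  refine ⟨min 1 (ε / W), lt_min one_pos (by positivity), fun x y hy1 hx hy => ?_⟩
  have hy2 := hy.trans_le (min_le_left _ _)
  have hx3 := hx.trans_le (min_le_right _ _)
  have hy3 := hy.trans_le (min_le_right _ _)
  have hyi : y⁻¹ = star y := (eq_inv_of_mul_eq_one_left hy1).symm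
  have e : y⁻¹ * x - 1 = star y * ((x - 1) - (y - 1)) := by
    rw [hyi, sub_sub_sub_cancel_right, mul_sub, hy1]
  have hyn : na B a y ≤ na B a 1 + 1 := by
    have e1 : y = 1 + (y - 1) := by abel
    rw [e1]
    exact (na_add_le _ _ _ _).trans (by linarith)
  have hsn : na B a (star y) ≤ C * (na B a 1 + 1) :=
    (hCs y).trans (mul_le_mul_of_nonneg_left hyn hC0.le)
  have h2 : na B a ((x - 1) - (y - 1)) < 2 * (ε / W) := by
    refine (na_sub_le _ _ _ _).trans_lt ?_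
    linarith
  have h3 := na_nonneg B a ((x - 1) - (y - 1))
  rw [e]
  refine (hCm _ _).trans_lt ?_
  have h4 : C * na B a (star y) * na B a ((x - 1) - (y - 1)) ≤
      C * (C * (na B a 1 + 1)) * na B a ((x - 1) - (y - 1)) :=
    mul_le_mul_of_nonneg_right (mul_le_mul_of_nonneg_left hsn hC0.le) h3
  refine h4.trans_lt ?_
  have h6 : 0 < C * (C * (na B a 1 + 1)) := by positivity
  calc C * (C * (na B a 1 + 1)) * na B a ((x - 1) - (y - 1))
      < C * (C * (na B a 1 + 1)) * (2 * (ε / W)) := mul_lt_mul_of_pos_left h2 h6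
    _ = ε := by
      rw [hW]
      field_simp

end est

variable {k K D Ω : Type} [Field k] [Field K] [StarRing K] [DivisionRing D] [StarRing D]
  [Algebra k K] [Algebra k D] [Algebra K D] [IsScalarTower k K D] [Field Ω] [Algebra K Ω]
  {n N : ℕ} {d : kˣ} {s : K}

/-- **The two rotations**: if `Q` contains two elements close to one which carry `I` to
`x I x⁻¹`, then `x` belongs to `Q`. -/
theorem rot_mem (hS : SetF k K D d s) (f : D →ₐ[K] Matrix (Fin n) (Fin n) Ω)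
    (B : Basis (Fin N) k D) (Q : Subgroup (SUA f)) {t : D} (hAb : AbAtF B f (ImF Q) t) :
    ∃ S : Finset (Place k), ∃ θ : ℝ, 0 < θ ∧ ∀ x ν₁ ν₂ i : D, x * star x = 1 →
      (f x).det = 1 → ν₁ ∈ ImF Q → ν₂ ∈ ImF Q →
      ν₁ * (algebraMap K D s * t) = i * ν₁ →
      ν₂ * i = (x * (algebraMap K D s * t) * x⁻¹) * ν₂ →
      (∀ v ∈ S, Sm B v θ (x - 1) ∧ Sm B v θ (ν₁ - 1) ∧ Sm B v θ (ν₂ - 1)) → x ∈ ImF Q := by
  classical
  obtain ⟨S, ε, hε, hab⟩ := hAb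
  choose ε₁ hε₁ hd₁ using fun v : Place k =>
    near_ldivF B (fun c x => hS.star_smulk c x) v.abv hε
  choose ε₂ hε₂ hd₂ using fun v : Place k =>
    near_ldivF B (fun c x => hS.star_smulk c x) v.abv (hε₁ v)
  obtain ⟨θ, hθ, hθ'⟩ := H167.Cn.exists_min_pos S.finite_toSet
    (fun v => min (ε₁ v) (ε₂ v) / (N + 1))
    fun v => div_pos (lt_min (hε₁ v) (hε₂ v)) (by positivity)
  refine ⟨S, θ, hθ, ?_⟩
  intro x ν₁ ν₂ i hx hxd hν₁ hν₂ h1 h2 hnear
  obtain ⟨g₁, hg₁, rfl⟩ := hν₁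
  obtain ⟨g₂, hg₂, rfl⟩ := hν₂
  set ν₁ : D := ((g₁ : Dˣ) : D) with hν₁d
  set ν₂ : D := ((g₂ : Dˣ) : D) with hν₂d
  have u₁ : ν₁ * star ν₁ = 1 := g₁.2.1
  have u₂ : ν₂ * star ν₂ = 1 := g₂.2.1
  have d₁ : (f ν₁).det = 1 := g₁.2.2
  have d₂ : (f ν₂).det = 1 := g₂.2.2
  have n₁ : ν₁ ≠ 0 := left_ne_zero_of_mul_eq_one u₁
  have n₂ : ν₂ ≠ 0 := left_ne_zero_of_mul_eq_one u₂
  have hx0 : x ≠ 0 := left_ne_zero_of_mul_eq_one hx
  have hs0 : algebraMap K D s ≠ 0 := (_root_.map_ne_zero _).mpr hS.s_ne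
  have hxi : x⁻¹ = star x := (eq_inv_of_mul_eq_one_right hx).symm
  have i₁ : ν₁⁻¹ = star ν₁ := (eq_inv_of_mul_eq_one_right u₁).symm
  have i₂ : ν₂⁻¹ = star ν₂ := (eq_inv_of_mul_eq_one_right u₂).symm
  have su₁ : star ν₁ * ν₁ = 1 := by rw [← i₁, inv_mul_cancel₀ n₁]
  have su₂ : star ν₂ * ν₂ = 1 := by rw [← i₂, inv_mul_cancel₀ n₂]
  have sux : star x * x = 1 := by rw [← hxi, inv_mul_cancel₀ hx0]
  -- the element of the centralizer
  obtain ⟨e, he⟩ : ∃ e : D, e = ν₁⁻¹ * (ν₂⁻¹ * x) := ⟨_, rfl⟩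
  have hxe : x = ν₂ * (ν₁ * e) := by
    rw [he, mul_inv_cancel_left₀ n₁, mul_inv_cancel_left₀ n₂]
  obtain ⟨I, hI⟩ : ∃ I : D, I = algebraMap K D s * t := ⟨_, rfl⟩
  rw [← hI] at h1 h2
  have h1' : ν₁⁻¹ * i = I * ν₁⁻¹ := by
    rw [inv_mul_eq_iff_eq_mul₀ n₁, ← mul_assoc, h1, mul_inv_cancel_right₀ n₁]
  have h2' : ν₂⁻¹ * (x * I) = i * (ν₂⁻¹ * x) := by
    have h3 : ν₂⁻¹ * (ν₂ * i) = ν₂⁻¹ * (x * I * x⁻¹ * ν₂) := by rw [h2]
    rw [inv_mul_cancel_left₀ n₂] at h3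
    rw [h3]
    simp only [mul_assoc]
    rw [mul_inv_cancel_left₀ n₂, inv_mul_cancel₀ hx0, mul_one]
  have heI : e * I = I * e := by
    rw [he]
    calc ν₁⁻¹ * (ν₂⁻¹ * x) * I = ν₁⁻¹ * (ν₂⁻¹ * (x * I)) := by simp only [mul_assoc]
      _ = ν₁⁻¹ * i * (ν₂⁻¹ * x) := by rw [h2', mul_assoc]
      _ = I * (ν₁⁻¹ * (ν₂⁻¹ * x)) := by rw [h1', mul_assoc]
  have het : e * t = t * e := by
    have h3 : algebraMap K D s * (e * t) = algebraMap K D s * (t * e) := by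
      rw [← mul_assoc, Algebra.commutes s e, mul_assoc, ← hI, heI, hI, mul_assoc]
    exact mul_left_cancel₀ hs0 h3
  have hest : star e * e = 1 := by
    have h3 : star e = star x * ν₂ * ν₁ := by
      rw [he, star_mul, star_mul, i₁, i₂, star_star, star_star]
    rw [h3, he]
    calc star x * ν₂ * ν₁ * (ν₁⁻¹ * (ν₂⁻¹ * x)) =
        star x * (ν₂ * ((ν₁ * ν₁⁻¹) * ν₂⁻¹)) * x := by simp only [mul_assoc]
      _ = 1 := by rw [mul_inv_cancel₀ n₁, one_mul, mul_inv_cancel₀ n₂, mul_one, sux]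
  have hdet : (f e).det = 1 := by
    have h3 := congrArg (fun z => (f z).det) hxe
    simp only [map_mul, Matrix.det_mul, hxd, d₁, d₂, one_mul] at h3
    exact h3.symm
  have heQ : e ∈ ImF Q := by
    refine hab e het hest hdet fun v hv j => ?_
    obtain ⟨m1, m2, m3⟩ := hnear v hv
    have hN : 0 < min (ε₁ v) (ε₂ v) := lt_min (hε₁ v) (hε₂ v)
    have c1 : na B v.abv (x - 1) < min (ε₁ v) (ε₂ v) :=
      na_of_smF B hN fun j => (m1 j).trans_le (hθ' v hv)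
    have c2 : na B v.abv (ν₁ - 1) < min (ε₁ v) (ε₂ v) :=
      na_of_smF B hN fun j => (m2 j).trans_le (hθ' v hv)
    have c3 : na B v.abv (ν₂ - 1) < min (ε₁ v) (ε₂ v) :=
      na_of_smF B hN fun j => (m3 j).trans_le (hθ' v hv)
    have c4 := hd₂ v x ν₂ su₂ (c1.trans_le (min_le_right _ _)) (c3.trans_le (min_le_right _ _))
    have c5 := hd₁ v (ν₂⁻¹ * x) ν₁ su₁ c4 (c2.trans_le (min_le_left _ _))
    rw [← he] at c5
    exact (coord_le_na B v.abv _ j).trans_lt c5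
  obtain ⟨ge, hge, hgee⟩ := heQ
  refine ⟨g₂ * (g₁ * ge), Q.mul_mem hg₂ (Q.mul_mem hg₁ hge), ?_⟩
  change ((g₂ : Dˣ) : D) * (((g₁ : Dˣ) : D) * ((ge : Dˣ) : D)) = x
  rw [hgee, hxe]

end Vale.Agent.P011.H976.FF
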