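import Vale.Agent.P011.H738.Inv2
import Vale.Agent.P011.H961.SetG
import Vale.Agent.P011.W.Nrd

/-!
# Quaternion division algebras with an involution of the second kind, characteristic not two

The elements of norm one fixed up to inversion by the involution and of reduced norm one form the
norm one group of a quaternion algebra over the fixed field, whose canonical involution is the
given one.
-/

open Module

set_option linter.unusedSectionVars false

namespace Vale.Agent.P011.H976.FF.Two

open Vale.Agent.P011.H738 Vale.Agent.P011.H961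
open Vale.Agent.P011.W (HasNrd)

variable {L K' C : Type} [Field L] [Field K'] [StarRing K'] [DivisionRing C] [StarRing C]
  [Algebra L K'] [Algebra L C] [Algebra K' C] [IsScalarTower L K' C]

theorem exists_noncomm (hS : SetG L K' C) (hd : finrank K' C = 2 ^ 2) :
    ∃ x y : C, x * y ≠ y * x := by
  by_contra hcon
  push Not at hcon
  have hc := hS.cen
  have h1 : ∀ x : C, ∃ c : K', algebraMap K' C c = x := by
    intro x
    have h2 : x ∈ Subalgebra.center K' C := Subalgebra.mem_center_iff.mpr fun b => hcon b x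
    rw [Algebra.IsCentral.center_eq_bot] at h2
    exact Algebra.mem_bot.mp h2
  have h3 : finrank K' C ≤ 1 := finrank_le_one (1 : C) fun w => by
    obtain ⟨c, hc⟩ := h1 w
    exact ⟨c, by rw [← hc, Algebra.algebraMap_eq_smul_one]⟩
  rw [hd] at h3
  norm_num at h3

/-- The norm of an element of a quaternion algebra. -/
theorem nrm_quat {R : Type} [Ring R] [Algebra L R] {i j : R} {α β : L}
    (hii : i * i = algebraMap L R α) (hjj : j * j = algebraMap L R β)
    (hij : i * j = -(j * i)) (p0 p1 p2 p3 : L) :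
    (algebraMap L R p0 + algebraMap L R p1 * i + algebraMap L R p2 * j +
      algebraMap L R p3 * (i * j)) * (algebraMap L R p0 - algebraMap L R p1 * i -
      algebraMap L R p2 * j - algebraMap L R p3 * (i * j)) =
    algebraMap L R (p0 ^ 2 - α * p1 ^ 2 - β * p2 ^ 2 + α * β * p3 ^ 2) := by
  rw [Algebra.algebraMap_eq_smul_one] at hii hjj
  have e1 : j * i = -(i * j) := by rw [hij, neg_neg]
  have e2 : i * (i * j) = α • j := by rw [← mul_assoc, hii, smul_mul_assoc, one_mul]
  have e3 : j * (i * j) = -(β • i) := by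
    rw [← mul_assoc, e1, neg_mul, mul_assoc, hjj, mul_smul_comm, mul_one]
  have e4 : i * j * i = -(α • j) := by rw [mul_assoc, e1, mul_neg, e2]
  have e5 : i * j * j = β • i := by rw [mul_assoc, hjj, mul_smul_comm, mul_one]
  have e6 : i * j * (i * j) = -((α * β) • 1) := by
    rw [mul_assoc, e3, mul_neg, mul_smul_comm, hii, smul_smul, mul_comm β]
  simp only [Algebra.algebraMap_eq_smul_one, smul_mul_assoc, one_mul, add_mul, mul_sub,
    mul_smul_comm, mul_one, hii, hjj, e1, e2, e3, e4, e5, e6]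
  match_scalars <;> ring

/-- **The quaternion algebra over the fixed field.** -/
theorem frame (hS : SetG L K' C) (hd : finrank K' C = 2 ^ 2) (h2 : (2 : L) ≠ 0) {Ω : Type}
    [Field Ω] [Algebra K' Ω] (s : C →ₐ[K'] Matrix (Fin 2) (Fin 2) Ω) :
    ∃ (α β : Lˣ) (i j : C), star i = -i ∧ star j = -j ∧ i * i = algebraMap L C α ∧
      j * j = algebraMap L C β ∧ i * j = -(j * i) ∧
      ∀ u : C, u * star u = 1 → (s u).det = 1 → ∃ p0 p1 p2 p3 : L,
        p0 ^ 2 - α * p1 ^ 2 - β * p2 ^ 2 + α * β * p3 ^ 2 = 1 ∧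
        u = algebraMap L C p0 + algebraMap L C p1 * i + algebraMap L C p2 * j +
          algebraMap L C p3 * (i * j) := by
  have i1 := hS.starModule
  have i2 := hS.fin
  have i3 := hS.cen
  -- abbreviations
  obtain ⟨Q, hQ⟩ : ∃ Q : Subalgebra L C, Q = Q0 s hd hS.fix := ⟨_, rfl⟩
  have hcomL : ∀ (c : L) (x : C), algebraMap L C c * x = x * algebraMap L C c := fun c x =>
    Algebra.commutes c x
  have hstL : ∀ c : L, star (algebraMap L C c) = algebraMap L C c := hS.star_algebraMapk
  have hquad : ∀ x ∈ Q, ∃ τ ν : L, x + star x = algebraMap L C τ ∧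
      x * star x = algebraMap L C ν := by
    intro x hx
    rw [hQ] at hx
    exact Q0_quad s hd hS.fix hx
  obtain ⟨θ, hθ⟩ := hS.star_ne
  have h2C : algebraMap L C 2 ≠ 0 := (map_ne_zero _).mpr h2
  have hhalf : ∀ x : C, x = algebraMap L C 2⁻¹ * (x + x) := by
    intro x
    have e1 : x + x = algebraMap L C 2 * x := by
      rw [map_ofNat]
      exact (two_mul x).symm
    rw [e1, ← mul_assoc, ← map_mul, inv_mul_cancel₀ h2, map_one, one_mul]
  -- two elements which do not commute
  obtain ⟨x, hxQ, y, hyQ, hxy⟩ : ∃ x ∈ Q, ∃ y ∈ Q, x * y ≠ y * x := by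
    by_contra hcon
    push Not at hcon
    obtain ⟨x, y, hxy⟩ := exists_noncomm hS hd
    apply hxy
    obtain ⟨u, hu, v, hv, he⟩ := Q0_gen s hd hS.fix hθ x
    obtain ⟨u', hu', v', hv', he'⟩ := Q0_gen s hd hS.fix hθ y
    rw [← hQ] at hu hv hu' hv'
    have c1 := hcon u hu u' hu'
    have c2 := hcon u hu v' hv'
    have c3 := hcon v hv u' hu'
    have c4 := hcon v hv v' hv'
    have hK : ∀ (c : K') (z : C), algebraMap K' C c * z = z * algebraMap K' C c := fun c z =>
      Algebra.commutes c z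
    obtain ⟨A, hA⟩ : ∃ A : K', A = (θ - star θ)⁻¹ := ⟨_, rfl⟩
    obtain ⟨A', hA'⟩ : ∃ A' : K', A' = (θ - star θ)⁻¹ * star θ := ⟨_, rfl⟩
    rw [← hA', ← hA] at he he'
    have key : ∀ (a b : K') (z w : C), z * w = w * z →
        (algebraMap K' C a * z) * (algebraMap K' C b * w) =
          (algebraMap K' C b * w) * (algebraMap K' C a * z) := by
      intro a b z w hzw
      calc algebraMap K' C a * z * (algebraMap K' C b * w)
          = algebraMap K' C a * (z * algebraMap K' C b) * w := by noncomm_ring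
        _ = algebraMap K' C a * algebraMap K' C b * (z * w) := by rw [← hK]; noncomm_ring
        _ = algebraMap K' C b * algebraMap K' C a * (w * z) := by
            rw [hzw, ← map_mul, ← map_mul, mul_comm a b]
        _ = algebraMap K' C b * (algebraMap K' C a * w) * z := by noncomm_ring
        _ = algebraMap K' C b * w * (algebraMap K' C a * z) := by rw [hK a w]; noncomm_ring
    rw [he, he', add_mul, mul_add, mul_add, add_mul, mul_add, mul_add, key A A u u' c1,
      key A A' u v' c2, key A' A v u' c3, key A' A' v v' c4]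
    abel
  -- the first element
  obtain ⟨i, hi⟩ : ∃ i : C, i = x - star x := ⟨_, rfl⟩
  have hstQ : ∀ z ∈ Q, star z ∈ Q := by
    intro z hz
    obtain ⟨τ, -, hτ, -⟩ := hquad z hz
    rw [eq_sub_of_add_eq' hτ]
    exact Q.sub_mem (Q.algebraMap_mem _) hz
  have hiQ : i ∈ Q := by
    rw [hi]
    exact Q.sub_mem hxQ (hstQ x hxQ)
  have hsi : star i = -i := by rw [hi, star_sub, star_star, neg_sub]
  have hiy : i * y ≠ y * i := by
    intro hcon
    apply hxy
    obtain ⟨τ, -, hτ, -⟩ := hquad x hxQ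
    have e1 : i = x + x - algebraMap L C τ := by
      rw [hi, eq_sub_of_add_eq' hτ]
      abel
    rw [e1, sub_mul, mul_sub, hcomL, add_mul, mul_add] at hcon
    have e2 : x * y + x * y = y * x + y * x := sub_left_injective hcon
    rw [hhalf (x * y), e2, ← hhalf]
  have hi0 : i ≠ 0 := by
    rintro h0
    apply hiy
    rw [h0, zero_mul, mul_zero]
  obtain ⟨α, hii⟩ : ∃ α : L, i * i = algebraMap L C α := by
    obtain ⟨-, ν, -, hν⟩ := hquad i hiQ
    refine ⟨-ν, ?_⟩
    rw [map_neg, ← hν, hsi, mul_neg, neg_neg]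
  have hα0 : α ≠ 0 := by
    rintro rfl
    rw [map_zero] at hii
    exact hi0 (mul_self_eq_zero.mp hii)
  -- the second element
  obtain ⟨j, hj⟩ : ∃ j : C, j = i * y - y * i := ⟨_, rfl⟩
  have hjQ : j ∈ Q := by
    rw [hj]
    exact Q.sub_mem (Q.mul_mem hiQ hyQ) (Q.mul_mem hyQ hiQ)
  have hj0 : j ≠ 0 := by
    rw [hj]
    exact sub_ne_zero.mpr hiy
  have hij : i * j = -(j * i) := by
    rw [hj, mul_sub, sub_mul, ← mul_assoc, hii, mul_assoc (y) i i, hii, hcomL]
    noncomm_ring
  have hsj : star j = -j := by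
    obtain ⟨τ, -, hτ, -⟩ := hquad y hyQ
    rw [hj, star_sub, star_mul, star_mul, hsi, eq_sub_of_add_eq' hτ]
    have e1 : (algebraMap L C τ - y) * -i - -i * (algebraMap L C τ - y) =
        -(i * y - y * i) - (algebraMap L C τ * i - i * algebraMap L C τ) := by noncomm_ring
    rw [e1, hcomL, sub_self, sub_zero]
  obtain ⟨β, hjj⟩ : ∃ β : L, j * j = algebraMap L C β := by
    obtain ⟨-, ν, -, hν⟩ := hquad j hjQ
    refine ⟨-ν, ?_⟩
    rw [map_neg, ← hν, hsj, mul_neg, neg_neg]
  have hβ0 : β ≠ 0 := by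
    rintro rfl
    rw [map_zero] at hjj
    exact hj0 (mul_self_eq_zero.mp hjj)
  -- the centralizer of `i` in the fixed algebra
  have hcent : ∀ a ∈ Q, a * i = i * a → ∃ p q : L, a = algebraMap L C p + algebraMap L C q * i := by
    intro a ha hai
    obtain ⟨p, -, hp, -⟩ := hquad a ha
    obtain ⟨q, -, hq, -⟩ := hquad (a * i) (Q.mul_mem ha hiQ)
    -- `star (a * i) = -i * star a`
    rw [star_mul, hsi, eq_sub_of_add_eq' hp] at hq
    have e1 : a * i + -i * (algebraMap L C p - a) = a * i + i * a - i * algebraMap L C p := by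
      noncomm_ring
    rw [e1, ← hai, ← hcomL] at hq
    -- `2 a i = q + p i`
    have e2 : a * i = algebraMap L C 2⁻¹ * (algebraMap L C q + algebraMap L C p * i) := by
      rw [← hq, sub_add_cancel]
      exact hhalf _
    have e3 : a * algebraMap L C α = algebraMap L C 2⁻¹ * (algebraMap L C q + algebraMap L C p * i)
        * i := by
      rw [← e2, mul_assoc, hii]
    have e4 : a = a * algebraMap L C α * algebraMap L C α⁻¹ := by
      rw [mul_assoc, ← map_mul, mul_inv_cancel₀ hα0, map_one, mul_one]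
    refine ⟨2⁻¹ * p, 2⁻¹ * q * α⁻¹, ?_⟩
    rw [e4, e3, ← hcomL]
    simp only [map_mul, add_mul, mul_add, mul_assoc, hii]
    have e5 : algebraMap L C α⁻¹ * (algebraMap L C 2⁻¹ * (algebraMap L C p * algebraMap L C α)) =
        algebraMap L C 2⁻¹ * algebraMap L C p := by
      rw [← map_mul, ← map_mul, ← map_mul, ← map_mul]
      congr 1
      field_simp
    rw [e5, add_comm]
    congr 1
    rw [← mul_assoc, ← mul_assoc, ← mul_assoc, ← map_mul, ← map_mul, ← mul_assoc, ← map_mul,
      ← map_mul]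
    congr 2
    ring
  refine ⟨Units.mk0 α hα0, Units.mk0 β hβ0, i, j, hsi, hsj, hii, hjj, hij, fun u hu hdet => ?_⟩
  -- `u` is in the fixed algebra
  have hu0 : u ≠ 0 := left_ne_zero_of_mul_eq_one hu
  have huQ : u ∈ Q := by
    rw [hQ, mem_Q0]
    have h6 : u * gam s hd u = 1 := by
      apply s.toRingHom.injective
      change s _ = s _
      rw [map_mul, s_gam, Matrix.mul_adjugate, hdet, one_smul, map_one]
    exact mul_left_cancel₀ hu0 (hu.trans h6.symm)
  obtain ⟨P, hP⟩ : ∃ P : C, P = u + algebraMap L C α⁻¹ * (i * u * i) := ⟨_, rfl⟩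
  obtain ⟨M, hM⟩ : ∃ M : C, M = u - algebraMap L C α⁻¹ * (i * u * i) := ⟨_, rfl⟩
  have hiui : i * u * i ∈ Q := Q.mul_mem (Q.mul_mem hiQ huQ) hiQ
  have hPQ : P ∈ Q := by
    rw [hP]
    exact Q.add_mem huQ (Q.mul_mem (Q.algebraMap_mem _) hiui)
  have hMQ : M ∈ Q := by
    rw [hM]
    exact Q.sub_mem huQ (Q.mul_mem (Q.algebraMap_mem _) hiui)
  have hαα : ∀ z : C, algebraMap L C α⁻¹ * (z * algebraMap L C α) = z := by
    intro z
    rw [← hcomL α z, ← mul_assoc, ← map_mul, inv_mul_cancel₀ hα0, map_one, one_mul]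
  have e1 : algebraMap L C α⁻¹ * (i * u * i) * i = i * u := by
    rw [mul_assoc, mul_assoc (i * u) i i, hii, hαα]
  have e2 : i * (algebraMap L C α⁻¹ * (i * u * i)) = u * i := by
    have e3 : i * (algebraMap L C α⁻¹ * (i * u * i)) =
        algebraMap L C α⁻¹ * (i * i * (u * i)) := by
      rw [← mul_assoc, ← hcomL]
      noncomm_ring
    rw [e3, hii, hcomL α, hαα]
  obtain ⟨r0, r1, hr⟩ := hcent P hPQ (by
    rw [hP, add_mul, mul_add, e1, e2, add_comm])
  have hMi : M * i = -(i * M) := by
    rw [hM, sub_mul, mul_sub, e1, e2]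
    abel
  obtain ⟨r2, r3, hr'⟩ := hcent (M * j) (Q.mul_mem hMQ hjQ) (by
    have e3 : j * i = -(i * j) := by rw [hij, neg_neg]
    rw [mul_assoc, e3, mul_neg, ← mul_assoc, hMi, neg_mul, neg_neg, mul_assoc])
  have hMe : M = algebraMap L C (r2 / β) * j + algebraMap L C (r3 / β) * (i * j) := by
    have e1 : M * algebraMap L C β = (algebraMap L C r2 + algebraMap L C r3 * i) * j := by
      rw [← hjj, ← mul_assoc, hr']
    have e2 : M = M * algebraMap L C β * algebraMap L C β⁻¹ := by
      rw [mul_assoc, ← map_mul, mul_inv_cancel₀ hβ0, map_one, mul_one]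
    rw [e2, e1, div_eq_mul_inv, div_eq_mul_inv, map_mul, map_mul, ← hcomL β⁻¹, add_mul, mul_add,
      ← mul_assoc, ← map_mul, mul_comm β⁻¹ r2, mul_assoc (algebraMap L C r3) i j, ← mul_assoc,
      ← map_mul, mul_comm β⁻¹ r3, map_mul, map_mul]
  have hue : u = algebraMap L C (2⁻¹ * r0) + algebraMap L C (2⁻¹ * r1) * i +
      algebraMap L C (2⁻¹ * (r2 / β)) * j + algebraMap L C (2⁻¹ * (r3 / β)) * (i * j) := by
    have e4 : u + u = P + M := by
      rw [hP, hM]
      abel
    have e5 : u = algebraMap L C 2⁻¹ * (P + M) := by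
      rw [← e4]
      exact hhalf u
    rw [e5, hr, hMe]
    simp only [map_mul, mul_add, mul_assoc]
    abel
  refine ⟨2⁻¹ * r0, 2⁻¹ * r1, 2⁻¹ * (r2 / β), 2⁻¹ * (r3 / β), ?_, hue⟩
  generalize 2⁻¹ * r0 = p0 at hue
  generalize 2⁻¹ * r1 = p1 at hue
  generalize 2⁻¹ * (r2 / β) = p2 at hue
  generalize 2⁻¹ * (r3 / β) = p3 at hue
  have hsij : star (i * j) = -(i * j) := by
    rw [star_mul, hsi, hsj, neg_mul_neg, hij, neg_neg]
  have hsu : star u = algebraMap L C p0 - algebraMap L C p1 * i - algebraMap L C p2 * j -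
      algebraMap L C p3 * (i * j) := by
    rw [hue, star_add, star_add, star_add, hstL, star_mul, star_mul, star_mul, hstL,
      hstL, hstL, hsi, hsj, hsij, neg_mul, neg_mul, neg_mul, ← hcomL, ← hcomL, ← hcomL]
    abel
  apply (algebraMap L C).injective
  have e3 := nrm_quat hii hjj hij p0 p1 p2 p3
  rw [← hue, ← hsu, hu] at e3
  rw [map_one, e3]
  rfl

end Vale.Agent.P011.H976.FF.Two
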