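import Vale.Agent.P011.H872.FF.BaseF
import Vale.Agent.P011.H929.DP
import Mathlib.LinearAlgebra.Matrix.Charpoly.LinearMap
import Mathlib.LinearAlgebra.Charpoly.ToMatrix
import Mathlib.RingTheory.Norm.Basic

/-!
The norm of an element of a cubic field and the cubic norm of a division algebra; arbitrary fields.
-/

open Module Polynomial

set_option linter.unusedSectionVars false

namespace Vale.Agent.P011.H976.FF

open Vale.Agent.P011.H775 (Cub)

section root

variable {k E : Type} [Field k] [Field E] [Algebra k E]

/-- The norm of a root of a cubic polynomial generating a cubic extension. -/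
theorem norm_root (hE : finrank k E = 3) {e1 e2 e3 : k} {θ : E}
    (hθ : θ ^ 3 - algebraMap k E e1 * θ ^ 2 + algebraMap k E e2 * θ - algebraMap k E e3 = 0)
    (hgen : ∀ c : k, algebraMap k E c ≠ θ) : Algebra.norm k θ = e3 := by
  have hfd : FiniteDimensional k E := Module.finite_of_finrank_pos (by rw [hE]; norm_num)
  set f : k[X] := X ^ 3 - C e1 * X ^ 2 + C e2 * X - C e3 with hf
  have hdeg : f.natDegree = 3 := by
    rw [hf]
    compute_degree!
  have hm : f.Monic := by
    rw [Monic, leadingCoeff, hdeg, hf]
    simp
  have h0 : aeval θ f = 0 := by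
    rw [hf]
    simpa using hθ
  have hint : IsIntegral k θ := Algebra.IsIntegral.isIntegral θ
  -- the degree of the minimal polynomial
  have hd3 : (minpoly k θ).natDegree = 3 := by
    have h1 : (minpoly k θ).natDegree ∣ 3 := by
      rw [← hE]
      exact minpoly.degree_dvd hint
    rcases (Nat.dvd_prime Nat.prime_three).mp h1 with h2 | h2
    · exfalso
      obtain ⟨c, hc⟩ := minpoly.natDegree_eq_one_iff.mp h2
      exact hgen c hc
    · exact h2
  have hmp : minpoly k θ = f :=
    (Polynomial.eq_of_monic_of_dvd_of_natDegree_le (minpoly.monic hint) hm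
      (minpoly.dvd k θ h0) (by rw [hdeg, hd3])).symm
  have hL : minpoly k (Algebra.lmul k E θ) = minpoly k θ :=
    minpoly.algHom_eq (Algebra.lmul k E) Algebra.lmul_injective θ
  have hch : (Algebra.lmul k E θ).charpoly = f := by
    refine Polynomial.eq_of_monic_of_dvd_of_natDegree_le hm
      (LinearMap.charpoly_monic _) ?_ ?_
    · rw [← hmp, ← hL]
      exact LinearMap.minpoly_dvd_charpoly _
    · rw [LinearMap.charpoly_natDegree, hE, hdeg]
  rw [Algebra.norm_apply, LinearMap.det_eq_sign_charpoly_coeff, hch, hE, hf]
  simp only [coeff_sub, coeff_add, coeff_X_pow, coeff_C_mul, coeff_X_zero, coeff_C_zero]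
  norm_num

/-- The norm of an element of a cubic subfield is the cubic norm. -/
theorem N_norm {C : Type} [DivisionRing C] [Algebra k C] (CC : Cub k C) (hE : finrank k E = 3)
    (φ : E →ₐ[k] C) (e : E) : CC.N (φ e) = Algebra.norm k e := by
  by_cases hgen : ∀ c : k, algebraMap k E c ≠ e
  · refine (norm_root hE (e1 := CC.T (φ e)) (e2 := CC.S (φ e)) ?_ hgen).symm
    have hi : Function.Injective φ := φ.injective
    apply hi
    have g1 := CC.cayley (φ e)
    rw [Algebra.smul_def, Algebra.smul_def, Algebra.smul_def, mul_one] at g1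
    rw [map_sub, map_add, map_sub, map_mul, map_mul, map_pow, map_pow, AlgHom.commutes,
      AlgHom.commutes, AlgHom.commutes, map_zero, pow_succ, pow_two]
    exact g1
  · push Not at hgen
    obtain ⟨c, rfl⟩ := hgen
    rw [AlgHom.commutes, Algebra.norm_algebraMap, hE]
    exact (H872.FF.cub_scalar CC c).2.2

end root

end Vale.Agent.P011.H976.FF
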