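import Vale.Agent.P011.H976.FF.NormC
import Vale.Agent.P011.H976.FF.QuatF

/-!
The doubling step: from an element of given norm of the field generated over the centre of the
centralizer to a unitary element of a quaternion algebra; the part which holds over every field.
-/

open Module Polynomial

set_option linter.unusedSectionVars false

namespace Vale.Agent.P011.H976.FF

open Vale.Agent.P011.H305 Vale.Agent.P011.H872.FF
open Vale.Agent.P011.Even (inc)
open Vale.Agent.P011.H775 (Cub)
open Vale.Agent.P011.H359 (semi_coeff)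

/-- Lifting homomorphisms through an injective one. -/
theorem exists_lift_hom {A B R : Type} [Ring A] [Ring B] [Ring R] (p : A →+* R) (q : B →+* R)
    (hq : Function.Injective q) (h : ∀ a, ∃ b, q b = p a) :
    ∃ r : A →+* B, ∀ a, q (r a) = p a := by
  choose r hr using h
  exact ⟨{ toFun := r
           map_one' := hq (by rw [hr, map_one, map_one])
           map_mul' := fun x y => hq (by rw [hr, map_mul, map_mul, hr, hr])
           map_zero' := hq (by rw [hr, map_zero, map_zero])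
           map_add' := fun x y => hq (by rw [hr, map_add, map_add, hr, hr]) }, hr⟩

section letters

variable {k K D : Type} [Field k] [Field K] [StarRing K] [DivisionRing D] [StarRing D]
    [Algebra k K] [Algebra k D] [Algebra K D] [IsScalarTower k K D] {d : kˣ} {s : K}

theorem star_algkF (hS : SetF k K D d s) (c : k) :
    star (algebraMap k D c) = algebraMap k D c := by
  rw [Algebra.algebraMap_eq_smul_one, hS.star_smulk, star_one]

theorem star_sDF (hS : SetF k K D d s) : star (algebraMap K D s) = -algebraMap K D s := by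
  rw [star_algF hS, hS.star_s, map_neg]

/-- The product of a symmetric square root and of `s`. -/
theorem st_star (hS : SetF k K D d s) {a : kˣ} {t : D} (ht : t ∈ XaF D a) :
    star (algebraMap K D s * t) = -(algebraMap K D s * t) := by
  rw [star_mul, ht.1, star_sDF hS, mul_neg, Algebra.commutes]

theorem st_sq (hS : SetF k K D d s) {a : kˣ} {t : D} (ht : t ∈ XaF D a) :
    algebraMap K D s * t * (algebraMap K D s * t) = algebraMap k D ((a * d : kˣ) : k) := by
  have h1 : algebraMap K D s * algebraMap K D s = algebraMap k D d := by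
    rw [← map_mul, ← pow_two, hS.sq, ← IsScalarTower.algebraMap_apply]
  rw [mul_assoc, ← mul_assoc t, ← Algebra.commutes s t, mul_assoc, ht.2, ← mul_assoc, h1,
    ← map_mul, Units.val_mul, mul_comm]

/-- Elements anticommuting with `t` anticommute with `s t`. -/
theorem st_anti {t j : D} (h : j * t = -(t * j)) :
    algebraMap K D s * t * j = -(j * (algebraMap K D s * t)) := by
  rw [← mul_assoc j, ← Algebra.commutes s j, mul_assoc _ j t, h, mul_neg, neg_neg, mul_assoc]

theorem exists_coordF (hS : SetF k K D d s) (c : K) :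
    ∃ x y : k, c = algebraMap k K x + algebraMap k K y * s := by
  have h2 : (2 : K) ≠ 0 := two_neK hS
  have hs0 : s ≠ 0 := hS.s_ne
  have h2s : star (2 : K) = 2 := star_ofNat 2
  obtain ⟨x, hx⟩ := (hS.fix ((c + star c) / 2)).mp (by
    rw [star_div₀, star_add, star_star, h2s, add_comm])
  obtain ⟨y, hy⟩ := (hS.fix ((c - star c) / (2 * s))).mp (by
    rw [star_div₀, star_sub, star_star, star_mul, h2s, hS.star_s]
    field_simp
    ring)
  refine ⟨x, y, ?_⟩
  rw [hx, hy]
  field_simp
  ring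

end letters

section gen

/-- Elements commuting with a generator. -/
theorem mem_range {K D : Type} [Field K] [DivisionRing D] [Algebra K D] [FiniteDimensional K D]
    [Algebra.IsCentral K D] {p : ℕ} (hp : p.Prime) (h : finrank K D = p ^ 2) {E : Type} [Field E]
    [Algebra K E] (φ : E →ₐ[K] D) {θ : E} (hθ : φ θ ∉ Set.range (algebraMap K D)) {y : D}
    (hy : y * φ θ = φ θ * y) : ∃ x : E, φ x = y := by
  have h1 := H929.centralizer_eq_adjoin hp h hθ hθ rfl hy
  have h2 : Algebra.adjoin K {φ θ} ≤ φ.range := Algebra.adjoin_le (by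
    rintro _ rfl
    exact ⟨θ, rfl⟩)
  exact h2 h1

/-- Transport of a multiplicative and additive map through an injective homomorphism. -/
theorem lift_inj {A R : Type} [Ring A] [Ring R] (q : A →+* R) (hq : Function.Injective q)
    (p : A → R) (hr : ∀ a, ∃ b, q b = p a) (p1 : p 1 = 1) (pm : ∀ a b, p (a * b) = p a * p b)
    (pa : ∀ a b, p (a + b) = p a + p b) : ∃ σ : A →+* A, ∀ a, q (σ a) = p a := by
  choose r hr using hr
  have p0 : p 0 = 0 := by
    have h1 := pa 0 0
    rw [add_zero] at h1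
    exact left_eq_add.mp h1
  exact ⟨{ toFun := r
           map_one' := hq (by rw [hr, p1, map_one])
           map_mul' := fun x y => hq (by rw [hr, pm, map_mul, hr, hr])
           map_zero' := hq (by rw [hr, p0, map_zero])
           map_add' := fun x y => hq (by rw [hr, pa, map_add, hr, hr]) }, hr⟩

/-- An endomorphism of order two over the base is an automorphism. -/
theorem exists_aut {k E : Type} [Field k] [Field E] [Algebra k E] (σ : E →+* E)
    (h2 : ∀ x, σ (σ x) = x) (hk : ∀ c : k, σ (algebraMap k E c) = algebraMap k E c) :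
    ∃ σ' : E ≃ₐ[k] E, ∀ x, σ' x = σ x := by
  let τ : E →ₐ[k] E := { σ with commutes' := hk }
  exact ⟨AlgEquiv.ofAlgHom τ τ (AlgHom.ext h2) (AlgHom.ext h2), fun x => rfl⟩

end gen

section main

variable {k K D L K' C : Type} [Field k] [Field K] [StarRing K]
    [DivisionRing D] [StarRing D] [Algebra k K] [Algebra k D] [Algebra K D] [IsScalarTower k K D]
    [Field L] [Algebra k L] [Field K'] [StarRing K']
    [Algebra K K'] [DivisionRing C] [StarRing C] [Algebra L K'] [Algebra L C] [Algebra K' C]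
    [IsScalarTower L K' C] {d : kˣ} {s : K} {t : D} {a : kˣ} {T : L} {jC : C →+* D}
    {E : Type} [Field E] [Algebra K' E] {φ : E →ₐ[K'] C} {θ : E} {j : D}

/-- The involution on the field generated by a symmetric element. -/
theorem exists_sig1 (hSC : SetF L K' C (inc k L d) (algebraMap K K' s))
    (hdC : finrank K' C = 3 ^ 2) (hθn : φ θ ∉ Set.range (algebraMap K' C))
    (hs : star (φ θ) = φ θ) : ∃ σ : E →+* E, ∀ x, φ (σ x) = star (φ x) := by
  have i1 := hSC.fin
  have i2 := hSC.cen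
  refine lift_inj (φ : E →+* C) φ.injective (fun x => star (φ x)) ?_ ?_ ?_ ?_
  · intro x
    refine mem_range Nat.prime_three hdC φ hθn ?_
    have h1 : star (φ x) * star (φ θ) = star (φ θ) * star (φ x) := by
      rw [← star_mul, ← star_mul, ← map_mul, ← map_mul, mul_comm]
    rwa [hs] at h1
  · rw [map_one, star_one]
  · intro x y
    rw [mul_comm, map_mul, star_mul]
  · intro x y
    rw [map_add, star_add]

/-- The conjugation by `j` on the field generated by `j ^ 2`. -/
theorem exists_sig2 (h : IsCentF k K D L K' C t a T jC)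
    (hSC : SetF L K' C (inc k L d) (algebraMap K K' s))
    (hdC : finrank K' C = 3 ^ 2) (hθn : φ θ ∉ Set.range (algebraMap K' C))
    (hj0 : j ≠ 0) (hjt : j * t = -(t * j)) (hθ : jC (φ θ) = j * j) :
    ∃ σ : E →+* E, ∀ x, jC (φ (σ x)) = j * jC (φ x) * j⁻¹ := by
  have i1 := hSC.fin
  have i2 := hSC.cen
  have hti : j⁻¹ * t = -(t * j⁻¹) := by
    have h1 : j⁻¹ * (j * t) * j⁻¹ = j⁻¹ * (-(t * j)) * j⁻¹ := by rw [hjt]
    rw [← mul_assoc, inv_mul_cancel₀ hj0, one_mul, mul_neg, neg_mul, mul_assoc, mul_assoc,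
      mul_inv_cancel₀ hj0, mul_one] at h1
    rw [h1, neg_neg]
  refine lift_inj (jC.comp (φ : E →+* C)) (h.inj.comp φ.injective)
    (fun x => j * jC (φ x) * j⁻¹) ?_ ?_ ?_ ?_
  · intro x
    have h1 : j * jC (φ x) * j⁻¹ * t = t * (j * jC (φ x) * j⁻¹) := by
      rw [mul_assoc, hti, mul_neg, ← mul_assoc, mul_assoc j, h.comm, ← mul_assoc j, hjt]
      simp only [neg_mul, neg_neg, mul_assoc]
    obtain ⟨c, hc⟩ := (h.range _).mp h1
    obtain ⟨y, hy⟩ := mem_range Nat.prime_three hdC φ hθn (y := c) (by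
      apply h.inj
      rw [map_mul, map_mul, hc, hθ]
      have h2 : jC (φ x) * (j * j) = j * j * jC (φ x) := by
        rw [← hθ, ← map_mul, ← map_mul, ← map_mul, ← map_mul, mul_comm]
      calc j * jC (φ x) * j⁻¹ * (j * j) = j * jC (φ x) * (j⁻¹ * j) * j := by
            simp only [mul_assoc]
        _ = j * (jC (φ x) * (j * j)) * j⁻¹ := by
            rw [inv_mul_cancel₀ hj0, mul_one, mul_assoc j (jC (φ x) * (j * j)),
              mul_assoc (jC (φ x)), mul_assoc j j j⁻¹, mul_inv_cancel₀ hj0, mul_one, mul_assoc]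
        _ = j * j * (j * jC (φ x) * j⁻¹) := by rw [h2]; simp only [mul_assoc])
    exact ⟨y, by change jC (φ y) = _; rw [hy, hc]⟩
  · rw [map_one, map_one, mul_one, mul_inv_cancel₀ hj0]
  · intro x y
    change j * jC (φ (x * y)) * j⁻¹ = j * jC (φ x) * j⁻¹ * (j * jC (φ y) * j⁻¹)
    rw [map_mul, map_mul]
    calc j * (jC (φ x) * jC (φ y)) * j⁻¹ = j * jC (φ x) * 1 * (jC (φ y) * j⁻¹) := by
          rw [mul_one]; simp only [mul_assoc]
      _ = _ := by rw [← inv_mul_cancel₀ hj0]; simp only [mul_assoc]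
  · intro x y
    change j * jC (φ (x + y)) * j⁻¹ = j * jC (φ x) * j⁻¹ + j * jC (φ y) * j⁻¹
    rw [map_add, map_add, mul_add, add_mul]

theorem phi_ext {x y : E} (h : φ x = φ y) : x = y := φ.injective h

theorem sig1_sig1 {σ1 : E →+* E} (h1 : ∀ x, φ (σ1 x) = star (φ x)) (x : E) :
    σ1 (σ1 x) = x := phi_ext (φ := φ) (by rw [h1, h1, star_star])

theorem comm_sq (hθ : jC (φ θ) = j * j) (x : E) : jC (φ x) * (j * j) = j * j * jC (φ x) := by
  rw [← hθ, ← map_mul, ← map_mul, ← map_mul, ← map_mul, mul_comm]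

theorem inv_conj (hj0 : j ≠ 0) {X : D} (hX : X * (j * j) = j * j * X) :
    j⁻¹ * X * j = j * X * j⁻¹ := by
  calc j⁻¹ * X * j = j⁻¹ * X * j * (j * j⁻¹) := by rw [mul_inv_cancel₀ hj0, mul_one]
    _ = j⁻¹ * (X * (j * j)) * j⁻¹ := by simp only [mul_assoc]
    _ = j⁻¹ * j * (j * X * j⁻¹) := by rw [hX]; simp only [mul_assoc]
    _ = _ := by rw [inv_mul_cancel₀ hj0, one_mul]

theorem sig2_sig2 (h : IsCentF k K D L K' C t a T jC) (hj0 : j ≠ 0) (hθ : jC (φ θ) = j * j)
    {σ2 : E →+* E} (h2 : ∀ x, jC (φ (σ2 x)) = j * jC (φ x) * j⁻¹) (x : E) :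
    σ2 (σ2 x) = x := by
  apply phi_ext (φ := φ)
  apply h.inj
  have e1 := comm_sq (jC := jC) hθ x
  rw [h2, h2]
  calc j * (j * jC (φ x) * j⁻¹) * j⁻¹ = j * j * jC (φ x) * j⁻¹ * j⁻¹ := by
        simp only [mul_assoc]
    _ = jC (φ x) * (j * (j * j⁻¹) * j⁻¹) := by rw [← e1]; simp only [mul_assoc]
    _ = jC (φ x) := by rw [mul_inv_cancel₀ hj0, mul_one, mul_inv_cancel₀ hj0, mul_one]

theorem sig_comm (h : IsCentF k K D L K' C t a T jC) (hj0 : j ≠ 0) (hjs : star j = -j)
    (hθ : jC (φ θ) = j * j) {σ1 σ2 : E →+* E} (h1 : ∀ x, φ (σ1 x) = star (φ x))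
    (h2 : ∀ x, jC (φ (σ2 x)) = j * jC (φ x) * j⁻¹) (x : E) : σ1 (σ2 x) = σ2 (σ1 x) := by
  apply phi_ext (φ := φ)
  apply h.inj
  have e1 := comm_sq (jC := jC) hθ (σ1 x)
  rw [h1, h.star, h2, h2, ← inv_conj hj0 e1, h1, h.star, star_mul, star_mul, star_inv₀, hjs,
    inv_neg, neg_mul, mul_neg, mul_neg, neg_neg]
  simp only [mul_assoc]

/-- The element `ν` in `D`. -/
theorem jC_nu (h : IsCentF k K D L K' C t a T jC) (p u : k) :
    jC (algebraMap K' C (kk k K K' p + kk k K K' u * om K' s T)) =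
      algebraMap k D p + algebraMap k D u * (algebraMap K D s * t) := by
  have h1 : ∀ c : k, jC (algebraMap K' C (kk k K K' c)) = algebraMap k D c := fun c => by
    rw [IsScalarTower.algebraMap_apply k K D]
    exact h.jK _
  rw [map_add, map_add, map_mul, map_mul, h1, h1, om, map_mul, map_mul, h.jK,
    ← IsScalarTower.algebraMap_apply L K' C, h.jT]

theorem star_pu (hS : SetF k K D d s) (ht : t ∈ XaF D a) (p u : k) :
    star (algebraMap k D p + algebraMap k D u * (algebraMap K D s * t)) =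
      algebraMap k D p - algebraMap k D u * (algebraMap K D s * t) := by
  rw [star_add, star_mul, star_algkF hS, star_algkF hS, st_star hS ht, neg_mul,
    ← sub_eq_add_neg, ← Algebra.commutes u (algebraMap K D s * t)]

theorem conj_pu (hj0 : j ≠ 0) (hjt : j * t = -(t * j)) (p u : k) :
    j * (algebraMap k D p + algebraMap k D u * (algebraMap K D s * t)) * j⁻¹ =
      algebraMap k D p - algebraMap k D u * (algebraMap K D s * t) := by
  have e1 : j * (algebraMap K D s * t) = -(algebraMap K D s * t * j) := by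
    rw [st_anti hjt, neg_neg]
  have e2 : j * (algebraMap k D p + algebraMap k D u * (algebraMap K D s * t)) =
      (algebraMap k D p - algebraMap k D u * (algebraMap K D s * t)) * j := by
    rw [mul_add, sub_mul, ← mul_assoc j, ← Algebra.commutes p j, ← Algebra.commutes u j,
      mul_assoc _ j, e1, mul_neg, ← sub_eq_add_neg, ← mul_assoc]
  rw [e2, mul_assoc, mul_inv_cancel₀ hj0, mul_one]

theorem pu_mul (hS : SetF k K D d s) (ht : t ∈ XaF D a) {p u : k}
    (hpu : p ^ 2 - (a * d : k) * u ^ 2 = 1) :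
    (algebraMap k D p + algebraMap k D u * (algebraMap K D s * t)) *
      (algebraMap k D p - algebraMap k D u * (algebraMap K D s * t)) = 1 := by
  have e1 := st_sq hS ht
  obtain ⟨I, hI⟩ : ∃ I : D, I = algebraMap K D s * t := ⟨_, rfl⟩
  rw [← hI] at e1 ⊢
  have e2 : (algebraMap k D p + algebraMap k D u * I) * (algebraMap k D p - algebraMap k D u * I) =
      algebraMap k D p * algebraMap k D p - algebraMap k D u * algebraMap k D u * (I * I) := by
    have c1 : I * algebraMap k D p = algebraMap k D p * I := (Algebra.commutes p I).symm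
    have c2 : I * algebraMap k D u = algebraMap k D u * I := (Algebra.commutes u I).symm
    have c3 : algebraMap k D u * algebraMap k D p = algebraMap k D p * algebraMap k D u := by
      rw [← map_mul, ← map_mul, mul_comm]
    calc _ = algebraMap k D p * algebraMap k D p - algebraMap k D p * algebraMap k D u * I +
          algebraMap k D u * (I * algebraMap k D p) -
          algebraMap k D u * (I * algebraMap k D u) * I := by noncomm_ring
      _ = _ := by
        rw [c1, c2, ← mul_assoc (algebraMap k D u) (algebraMap k D p), c3]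
        noncomm_ring
  rw [e2, e1, ← map_mul, ← map_mul, ← map_mul, ← map_sub, ← map_one (algebraMap k D)]
  congr 1
  rw [← hpu, Units.val_mul]
  ring

/-- The conjugation by `j` on the centralizer and on its centre. -/
theorem exists_th (h : IsCentF k K D L K' C t a T jC) (hj0 : j ≠ 0) (hjt : j * t = -(t * j)) :
    ∃ (th : C →+* C) (τ0 : K' →+* K'), (∀ x, jC (th x) = j * jC x * j⁻¹) ∧
      ∀ c, th (algebraMap K' C c) = algebraMap K' C (τ0 c) := by
  have hti : j⁻¹ * t = -(t * j⁻¹) := by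
    have h1 : j⁻¹ * (j * t) * j⁻¹ = j⁻¹ * (-(t * j)) * j⁻¹ := by rw [hjt]
    rw [← mul_assoc, inv_mul_cancel₀ hj0, one_mul, mul_neg, neg_mul, mul_assoc, mul_assoc,
      mul_inv_cancel₀ hj0, mul_one] at h1
    rw [h1, neg_neg]
  obtain ⟨th, hth⟩ := lift_inj jC h.inj (fun x => j * jC x * j⁻¹) (by
      intro x
      have h1 : j * jC x * j⁻¹ * t = t * (j * jC x * j⁻¹) := by
        rw [mul_assoc, hti, mul_neg, ← mul_assoc, mul_assoc j, h.comm, ← mul_assoc j, hjt]
        simp only [neg_mul, neg_neg, mul_assoc]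
      exact (h.range _).mp h1)
    (by rw [map_one, mul_one, mul_inv_cancel₀ hj0])
    (by
      intro x y
      rw [map_mul]
      calc j * (jC x * jC y) * j⁻¹ = j * jC x * 1 * (jC y * j⁻¹) := by
            rw [mul_one]; simp only [mul_assoc]
        _ = _ := by rw [← inv_mul_cancel₀ hj0]; simp only [mul_assoc])
    (by
      intro x y
      rw [map_add, mul_add, add_mul])
  obtain ⟨τ0, hτ0⟩ := exists_lift_hom (th.comp (algebraMap K' C)) (algebraMap K' C)
    (algebraMap K' C).injective (by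
      intro c
      obtain ⟨u, v, rfl⟩ := h.repK c
      refine ⟨algebraMap K K' u - algebraMap K K' v * algebraMap L K' T, ?_⟩
      apply h.inj
      change _ = jC (th _)
      have h1 : ∀ l : K, jC (algebraMap K' C (algebraMap K K' l)) = algebraMap K D l := h.jK
      have h2 : jC (algebraMap K' C (algebraMap L K' T)) = t := by
        rw [← IsScalarTower.algebraMap_apply L K' C, h.jT]
      have e1 : jC (algebraMap K' C (algebraMap K K' u + algebraMap K K' v * algebraMap L K' T)) =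
          algebraMap K D u + algebraMap K D v * t := by
        rw [map_add, map_add, map_mul, map_mul, h1, h1, h2]
      have e2 : jC (algebraMap K' C (algebraMap K K' u - algebraMap K K' v * algebraMap L K' T)) =
          algebraMap K D u - algebraMap K D v * t := by
        rw [map_sub, map_sub, map_mul, map_mul, h1, h1, h2]
      rw [hth, e2, e1]
      have e3 : j * (algebraMap K D u + algebraMap K D v * t) =
          (algebraMap K D u - algebraMap K D v * t) * j := by
        rw [mul_add, sub_mul, ← mul_assoc j, ← Algebra.commutes u j, ← Algebra.commutes v j,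
          mul_assoc _ j, hjt, mul_neg, ← sub_eq_add_neg, ← mul_assoc]
      rw [e3, mul_assoc, mul_inv_cancel₀ hj0, mul_one])
  exact ⟨th, τ0, hth, fun c => (hτ0 c).symm⟩

/-- The projection of an element of norm `ν`. -/
def yy (σ1 σ2 : E →+* E) (n e : E) : E := e * σ2 (σ1 e) * (σ1 e)⁻¹ * (σ2 e)⁻¹ * n⁻¹

theorem sig1_yy {σ1 σ2 : E →+* E} (h11 : ∀ x, σ1 (σ1 x) = x)
    (h12 : ∀ x, σ1 (σ2 x) = σ2 (σ1 x)) {n e : E} (hn1 : σ1 n = n⁻¹) :
    σ1 (yy σ1 σ2 n e) = (yy σ1 σ2 n e)⁻¹ := by
  have e1 : σ1 (σ2 (σ1 e)) = σ2 e := by rw [h12, h11]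
  rw [yy, map_mul, map_mul, map_mul, map_mul, map_inv₀, map_inv₀, map_inv₀, e1, h11, h12, hn1]
  simp only [mul_inv, inv_inv]
  ring

theorem sig2_yy {σ1 σ2 : E →+* E} (h22 : ∀ x, σ2 (σ2 x) = x)
    {n e : E} (hn2 : σ2 n = n⁻¹) :
    σ2 (yy σ1 σ2 n e) = (yy σ1 σ2 n e)⁻¹ := by
  rw [yy, map_mul, map_mul, map_mul, map_mul, map_inv₀, map_inv₀, map_inv₀, h22, h22, hn2]
  simp only [mul_inv, inv_inv]
  ring

/-- The cubic norm of the projection. -/
theorem N_yy (h : IsCentF k K D L K' C t a T jC)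
    (hSC : SetF L K' C (inc k L d) (algebraMap K K' s)) (hdC : finrank K' C = 3 ^ 2)
    (CC : Cub K' C) {σ1 σ2 : E →+* E}
    (h1 : ∀ x, φ (σ1 x) = star (φ x)) (h2 : ∀ x, jC (φ (σ2 x)) = j * jC (φ x) * j⁻¹)
    (hj0 : j ≠ 0) (hjt : j * t = -(t * j)) {ν : K'} (hν0 : ν ≠ 0)
    (hν1 : ν * star ν = 1)
    (hν2 : jC (algebraMap K' C (star ν)) = j * jC (algebraMap K' C ν) * j⁻¹) {e : E}
    (he : CC.N (φ e) = ν) : CC.N (φ (yy σ1 σ2 (algebraMap K' E ν) e)) = ν := by
  have i1 := hSC.fin
  have i2 := hSC.cen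
  obtain ⟨th, τ0, hth, hτ⟩ := exists_th h hj0 hjt
  have hst : star ν = ν⁻¹ := eq_inv_of_mul_eq_one_right hν1
  have hτν : τ0 ν = ν⁻¹ := by
    apply (algebraMap K' C).injective
    apply h.inj
    rw [← hτ, hth, ← hν2, hst]
  have e1 : CC.N (φ (σ1 e)) = ν⁻¹ := by
    rw [h1, (CC.star_coeff hdC (fun c => star_algF hSC c) _).2.2, he, hst]
  have e2 : ∀ x : E, CC.N (φ (σ2 x)) = τ0 (CC.N (φ x)) := by
    intro x
    have h3 : φ (σ2 x) = th (φ x) := h.inj (by rw [h2, hth])
    rw [h3]
    exact (semi_coeff CC hdC th τ0 hτ _).2.2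
  have n3 : CC.N (φ (algebraMap K' E ν)) = ν ^ 3 := by
    rw [AlgHom.commutes]
    exact (cub_scalar CC ν).2.2
  have hφi : ∀ x : E, φ x⁻¹ = (φ x)⁻¹ := fun x => map_inv₀ φ x
  rw [yy, map_mul, map_mul, map_mul, map_mul, hφi, hφi, hφi, CC.N_mul, CC.N_mul, CC.N_mul,
    CC.N_mul, CC.N_inv, CC.N_inv, CC.N_inv, he, e2, e2, e1, he, n3, map_inv₀, hτν]
  field_simp

section psi

variable {F : Type} [Field F] [Algebra k F] {ι : F →ₐ[k] D} {β : Fˣ}

/-- The embedding of the symmetric subfield. -/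
theorem exists_psi (h : IsCentF k K D L K' C t a T jC) (hθ : jC (φ θ) = j * j)
    (hβ : j * j = ι β) (hgen : ∀ x : F, ∃ p : k[X], x = aeval (β : F) p) :
    ∃ ψ : F →+* E, (∀ x, jC (φ (ψ x)) = ι x) ∧
      (∀ c : k, ψ (algebraMap k F c) = algebraMap K' E (kk k K K' c)) ∧ ψ β = θ := by
  have hinj : Function.Injective (jC.comp (φ : E →+* C)) := h.inj.comp φ.injective
  have hk : ∀ c : k, jC (φ (algebraMap K' E (kk k K K' c))) = algebraMap k D c := by
    intro c
    rw [AlgHom.commutes, kk, RingHom.comp_apply, h.jK, ← IsScalarTower.algebraMap_apply]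
  obtain ⟨ψ, hψ⟩ := exists_lift_hom (ι : F →+* D) (jC.comp (φ : E →+* C)) hinj (by
    intro x
    obtain ⟨p, rfl⟩ := hgen x
    change ∃ b, jC (φ b) = ι _
    induction p using Polynomial.induction_on' with
    | add p q hp hq =>
      obtain ⟨b, hb⟩ := hp
      obtain ⟨b', hb'⟩ := hq
      exact ⟨b + b', by rw [map_add, map_add, map_add, map_add, hb, hb']⟩
    | monomial n c =>
      refine ⟨algebraMap K' E (kk k K K' c) * θ ^ n, ?_⟩
      rw [aeval_monomial, map_mul, map_mul, map_pow, map_pow, hk, hθ, hβ, map_mul, map_pow,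
        AlgHom.commutes])
  have hψ' : ∀ x, jC (φ (ψ x)) = ι x := hψ
  refine ⟨ψ, hψ', fun c => hinj ?_, hinj ?_⟩
  · change jC (φ _) = jC (φ _)
    rw [hψ', hk, AlgHom.commutes]
  · change jC (φ _) = jC (φ _)
    rw [hψ', hθ, hβ]

/-- The coordinates. -/
theorem exists_rep (hS : SetF k K D d s) (h : IsCentF k K D L K' C t a T jC)
    (hSC : SetF L K' C (inc k L d) (algebraMap K K' s)) (hdC : finrank K' C = 3 ^ 2)
    (hθn : φ θ ∉ Set.range (algebraMap K' C)) {ψ : F →+* E}
    (hk : ∀ c : k, ψ (algebraMap k F c) = algebraMap K' E (kk k K K' c)) (hψ : ψ β = θ) (x : E) :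
    ∃ a0 a1 a2 a3 : F, x = ψ a0 + ψ a1 * algebraMap K' E (algebraMap K K' s) +
      ψ a2 * algebraMap K' E (algebraMap L K' T) +
      ψ a3 * (algebraMap K' E (algebraMap K K' s) * algebraMap K' E (algebraMap L K' T)) := by
  have i1 := hSC.fin
  have i2 := hSC.cen
  have h1 : φ x ∈ Algebra.adjoin K' {φ θ} :=
    H929.centralizer_eq_adjoin Nat.prime_three hdC hθn hθn rfl (by
      rw [← map_mul, ← map_mul, mul_comm])
  rw [Algebra.adjoin_singleton_eq_range_aeval] at h1
  obtain ⟨p, hp⟩ := h1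
  have hp' : aeval θ p = x := by
    apply phi_ext (φ := φ)
    rw [← hp, ← aeval_algHom_apply]
    rfl
  rw [← hp']
  clear hp hp'
  induction p using Polynomial.induction_on' with
  | add p q hp hq =>
    obtain ⟨a0, a1, a2, a3, e1⟩ := hp
    obtain ⟨b0, b1, b2, b3, e2⟩ := hq
    refine ⟨a0 + b0, a1 + b1, a2 + b2, a3 + b3, ?_⟩
    rw [map_add, e1, e2]
    simp only [map_add]
    ring
  | monomial n c =>
    obtain ⟨u, v, rfl⟩ := h.repK c
    obtain ⟨a0, a1, rfl⟩ := exists_coordF hS u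
    obtain ⟨a2, a3, rfl⟩ := exists_coordF hS v
    refine ⟨algebraMap k F a0 * β ^ n, algebraMap k F a1 * β ^ n, algebraMap k F a2 * β ^ n,
      algebraMap k F a3 * β ^ n, ?_⟩
    rw [aeval_monomial]
    simp only [map_mul, map_pow, hk, hψ, map_add, kk, RingHom.comp_apply]
    ring

/-- The fixed elements of the composite of the two involutions. -/
theorem exists_fix (hS : SetF k K D d s) (h : IsCentF k K D L K' C t a T jC)
    (hSC : SetF L K' C (inc k L d) (algebraMap K K' s)) (hdC : finrank K' C = 3 ^ 2)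
    (hθn : φ θ ∉ Set.range (algebraMap K' C)) {ψ : F →+* E} (hψι : ∀ x, jC (φ (ψ x)) = ι x)
    (hk : ∀ c : k, ψ (algebraMap k F c) = algebraMap K' E (kk k K K' c)) (hψ : ψ β = θ)
    (fr : QFrF ι (inc k F (a * d)) β (algebraMap K D s * t) j) (ht : t ∈ XaF D a) (hj0 : j ≠ 0)
    (hjt : j * t = -(t * j)) {σ1 σ2 : E →+* E}
    (h1 : ∀ x, φ (σ1 x) = star (φ x)) (h2 : ∀ x, jC (φ (σ2 x)) = j * jC (φ x) * j⁻¹)
    {x : E} (hx1 : σ1 x = x⁻¹) (hx2 : σ2 x = x⁻¹) (hx0 : x ≠ 0) :
    ∃ p0 p1 : F, QEltF ι (inc k F (a * d)) β (algebraMap K D s * t) j p0 p1 0 0 (jC (φ x)) ∧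
      ψ (2 - 2 * p0) = (1 - x) * (1 - x⁻¹) := by
  have h2E : (2 : E) ≠ 0 := by
    rw [← map_ofNat (algebraMap K' E) 2]
    exact (_root_.map_ne_zero _).mpr (two_neK hSC)
  have hinj : Function.Injective (jC.comp (φ : E →+* C)) := h.inj.comp φ.injective
  obtain ⟨S, hSd⟩ : ∃ S : E, S = algebraMap K' E (algebraMap K K' s) := ⟨_, rfl⟩
  obtain ⟨T', hTd⟩ : ∃ T' : E, T' = algebraMap K' E (algebraMap L K' T) := ⟨_, rfl⟩
  have jS : jC (φ S) = algebraMap K D s := by rw [hSd, AlgHom.commutes, h.jK]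
  have jT : jC (φ T') = t := by
    rw [hTd, AlgHom.commutes, ← IsScalarTower.algebraMap_apply, h.jT]
  have s1 : σ1 S = -S := hinj (by
    change jC (φ _) = jC (φ _)
    rw [h1, h.star, map_neg, map_neg, jS, star_sDF hS])
  have s2 : σ2 S = S := hinj (by
    change jC (φ _) = jC (φ _)
    rw [h2, jS, ← Algebra.commutes, mul_assoc, mul_inv_cancel₀ hj0, mul_one])
  have t1 : σ1 T' = T' := hinj (by
    change jC (φ _) = jC (φ _)
    rw [h1, h.star, jT, ht.1])
  have t2 : σ2 T' = -T' := hinj (by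
    change jC (φ _) = jC (φ _)
    rw [h2, map_neg, map_neg, jT, hjt, neg_mul, mul_assoc, mul_inv_cancel₀ hj0, mul_one])
  have f1 : ∀ y : F, σ1 (ψ y) = ψ y := fun y => hinj (by
    change jC (φ _) = jC (φ _)
    rw [h1, h.star, hψι, fr.sym])
  have f2 : ∀ y : F, σ2 (ψ y) = ψ y := fun y => hinj (by
    change jC (φ _) = jC (φ _)
    rw [h2, hψι, ← fr.cj, mul_assoc, mul_inv_cancel₀ hj0, mul_one])
  have hST : (S * T') * (S * T') = ψ (algebraMap k F ((a * d : kˣ) : k)) := hinj (by
    change jC (φ _) = jC (φ _)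
    rw [hψι, map_mul, map_mul, map_mul, map_mul, jS, jT, st_sq hS ht, AlgHom.commutes])
  obtain ⟨p0, a1, a2, p1, hx⟩ := exists_rep hS h hSC hdC hθn hk hψ x
  rw [← hSd, ← hTd] at hx
  have e1 : σ1 (σ2 x) = x := by rw [hx2, map_inv₀, hx1, inv_inv]
  have e2 : ψ a1 * S + ψ a2 * T' = 0 := by
    have e3 : σ1 (σ2 x) = ψ p0 - ψ a1 * S - ψ a2 * T' + ψ p1 * (S * T') := by
      rw [hx]
      simp only [map_add, map_mul, s2, t2, f2, map_neg, s1, t1, f1]
      ring
    have e4 : (2 : E) * (ψ a1 * S + ψ a2 * T') = 0 := by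
      rw [e1] at e3
      linear_combination (-1 : E) * hx + e3
    exact (mul_eq_zero.mp e4).resolve_left h2E
  have hx' : x = ψ p0 + ψ p1 * (S * T') := by
    rw [hx]
    linear_combination e2
  have hxi : x⁻¹ = ψ p0 - ψ p1 * (S * T') := by
    rw [← hx1, hx']
    simp only [map_add, map_mul, s1, t1, f1]
    ring
  refine ⟨p0, p1, { fr := fr, nrm := ?_, eq := ?_ }, ?_⟩
  · apply ψ.injective
    have e3 := mul_inv_cancel₀ hx0
    rw [hxi] at e3
    nth_rewrite 1 [hx'] at e3
    have hα : ((inc k F (a * d) : Fˣ) : F) = algebraMap k F ((a * d : kˣ) : k) := rfl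
    rw [hα]
    simp only [map_add, map_sub, map_mul, map_pow, map_zero, map_one]
    simp only [Units.val_mul, map_mul] at hST ⊢
    linear_combination e3 + ψ p1 ^ 2 * hST
  · rw [hx', map_add, map_add, map_mul, map_mul, map_mul, map_mul, hψι, hψι, jS, jT, map_zero,
      zero_mul, zero_mul, add_zero, add_zero]
  · have e4 : (1 - x) * (1 - x⁻¹) = 2 - x - x⁻¹ := by
      have e3 := mul_inv_cancel₀ hx0
      linear_combination e3
    rw [e4, hxi, hx', map_sub, map_mul, map_ofNat]
    ring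

end psi


end main

end Vale.Agent.P011.H976.FF
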