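import Vale.Agent.P011.H976.FF.ProjA
import Vale.Agent.P011.H511.HasseApproxF

/-!
The doubling step over function fields: the projection of an element of given norm of the field
generated over the centre of the centralizer, from local norms, with approximation.
-/

open Module Polynomial

set_option linter.unusedSectionVars false

namespace Vale.Agent.P011.H976.FF

open Vale.Agent.P011.H305 Vale.Agent.P011.H738 Vale.Agent.P011.H271 Vale.Agent.P011.H271.S3
open Vale.Agent.P011.H973.PF Vale.Agent.P011.H872.FF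
open Vale.Agent.P011.H63.FB (incF)
open Vale.Agent.P011.H775 (Cub)

section gen

variable {k E : Type} [Field k] [Field E] [Algebra k E]

/-- The element `p + u I` of norm one is close to one if `p` is. -/
theorem nu_nearF {δ p u c : k} (hpu : p ^ 2 - δ * u ^ 2 = 1) {I : E}
    (hI : I * I = algebraMap k E δ) {v : Place k} {w : Place E} (hw : Ab w v)
    (hc : v.abv c ≤ 1) (hp : v.abv (p - 1) < v.abv (c ^ 2)) :
    w.abv (algebraMap k E p + algebraMap k E u * I - 1) < w.abv (algebraMap k E c) := by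
  have hγ : w.abv (algebraMap k E c) ≤ 1 := hw.le_one_iff.mpr hc
  have hγ0 : 0 ≤ w.abv (algebraMap k E c) := w.abv.nonneg _
  have h1 : w.abv (algebraMap k E p - 1) < w.abv (algebraMap k E c) ^ 2 := by
    have h2 := (H511.FF.ab_lt_iff hw _ _).mpr hp
    rwa [map_sub, map_one, map_pow, map_pow] at h2
  have h2 : w.abv (algebraMap k E p - 1) < w.abv (algebraMap k E c) :=
    h1.trans_le (pow_le_of_le_one hγ0 hγ two_ne_zero)
  have h3 : w.abv (algebraMap k E p + 1) ≤ 1 := by
    have e1 : algebraMap k E p + 1 = (algebraMap k E p - 1) + 2 := by ring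
    rw [e1]
    refine abv_add_le w (h2.le.trans hγ) ?_
    have h4 := natCast_le w 2
    simpa using h4
  have h4 : w.abv (algebraMap k E u * I) < w.abv (algebraMap k E c) := by
    refine lt_of_pow_lt_pow_left₀ 2 hγ0 ?_
    have e1 : (algebraMap k E u * I) ^ 2 = (algebraMap k E p - 1) * (algebraMap k E p + 1) := by
      have e2 : algebraMap k E (p ^ 2 - δ * u ^ 2) = 1 := by rw [hpu, map_one]
      rw [map_sub, map_mul, map_pow, map_pow, ← hI] at e2
      linear_combination (-1 : E) * e2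
    rw [← map_pow w.abv (algebraMap k E u * I), e1, map_mul]
    exact (mul_le_of_le_one_right (w.abv.nonneg _) h3).trans_lt h1
  have e1 : algebraMap k E p + algebraMap k E u * I - 1 =
      (algebraMap k E p - 1) + algebraMap k E u * I := by ring
  rw [e1]
  exact abv_add_lt w h2 h4

/-- Closeness to one at all places above a place is stable under automorphisms. -/
theorem near_autF (σ : E ≃ₐ[k] E) {e : E} {c : k} {v : Place k}
    (h : ∀ w : Place E, Ab w v → w.abv (e - 1) < w.abv (algebraMap k E c)) (w : Place E)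
    (hw : Ab w v) : w.abv (σ e - 1) < w.abv (algebraMap k E c) := by
  have h1 : Ab (conjP σ w) v := by
    obtain ⟨c, hc, h2⟩ := hw
    refine ⟨c, hc, fun x => ?_⟩
    rw [conjP_abv, AlgEquiv.commutes, h2]
  have h4 := h _ h1
  rwa [conjP_abv, conjP_abv, map_sub, map_one, AlgEquiv.commutes] at h4

end gen

section main

variable {k K D L K' C : Type} [Field k] [Field K] [StarRing K]
    [DivisionRing D] [StarRing D] [Algebra k K] [Algebra k D] [Algebra K D] [IsScalarTower k K D]
    [Field L] [Algebra k L] [Field K'] [StarRing K']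
    [Algebra K K'] [DivisionRing C] [StarRing C] [Algebra L K'] [Algebra L C] [Algebra K' C]
    [IsScalarTower L K' C] {d : kˣ} {s : K} {t : D} {a : kˣ} {T : L} {jC : C →+* D}
    {E : Type} [Field E] [Algebra K' E] {φ : E →ₐ[K'] C} {θ : E} {j : D}

/-- The centre of the centralizer is finite over the base. -/
theorem finite_kK' [Algebra k K'] [IsScalarTower k K K'] (hS : SetF k K D d s)
    (h : IsCentF k K D L K' C t a T jC) : Module.Finite k K' := by
  classical
  obtain ⟨S, hSd⟩ : ∃ S : K', S = algebraMap K K' s := ⟨_, rfl⟩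
  obtain ⟨T', hTd⟩ : ∃ T' : K', T' = algebraMap L K' T := ⟨_, rfl⟩
  refine ⟨⟨{1, S, T', S * T'}, ?_⟩⟩
  rw [eq_top_iff]
  rintro x -
  obtain ⟨u, v, rfl⟩ := h.repK x
  obtain ⟨a0, a1, rfl⟩ := exists_coordF hS u
  obtain ⟨a2, a3, rfl⟩ := exists_coordF hS v
  have e1 : algebraMap K K' (algebraMap k K a0 + algebraMap k K a1 * s) +
      algebraMap K K' (algebraMap k K a2 + algebraMap k K a3 * s) * algebraMap L K' T =
      a0 • (1 : K') + a1 • S + a2 • T' + a3 • (S * T') := by
    simp only [map_add, map_mul, ← IsScalarTower.algebraMap_apply k K K', Algebra.smul_def,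
      hSd, hTd]
    ring
  rw [e1]
  refine Submodule.add_mem _ (Submodule.add_mem _ (Submodule.add_mem _ ?_ ?_) ?_) ?_ <;>
    refine Submodule.smul_mem _ _ (Submodule.subset_span ?_) <;> simp

section near

variable {F : Type} [Field F] [Algebra k F] {ι : F →ₐ[k] D} {β : Fˣ} [Algebra k E]
  [GFF E] [GFF F]

/-- **The projection**: from an element of norm `ν` of the field generated by `j ^ 2` over the
centre of the centralizer to a unitary element of the quaternion algebra. -/
theorem exists_yF (hS : SetF k K D d s)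
    (hSC : SetF L K' C (incF k L d) (algebraMap K K' s)) (h : IsCentF k K D L K' C t a T jC)
    (hdC : finrank K' C = 3 ^ 2) (ht : t ∈ XaF D a) (CC : Cub K' C) (hj0 : j ≠ 0)
    (hjs : star j = -j)
    (hjt : j * t = -(t * j)) (hkE : ∀ c : k, algebraMap k E c = algebraMap K' E (kk k K K' c))
    (hE : finrank K' E = 3) (hθ : jC (φ θ) = j * j) (hθn : φ θ ∉ Set.range (algebraMap K' C))
    (fr : QFrF ι (incF k F (a * d)) β (algebraMap K D s * t) j)
    (hgen : ∀ x : F, ∃ p : k[X], x = aeval (β : F) p) {p u : k}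
    (hpu : p ^ 2 - (a * d : k) * u ^ 2 = 1) {e : E}
    (he : Algebra.norm K' e = kk k K K' p + kk k K K' u * om K' s T) :
    ∃ (x : E) (p0 p1 : F), CC.N (φ x) = kk k K K' p + kk k K K' u * om K' s T ∧
      φ x * star (φ x) = 1 ∧
      QEltF ι (incF k F (a * d)) β (algebraMap K D s * t) j p0 p1 0 0 (jC (φ x)) ∧
      ∀ (v : Place k) (c : k), v.abv c ≤ 1 →
        v.abv (p - 1) < v.abv (c ^ 2) →
        (∀ w : Place E, Ab w v → w.abv (e - 1) < w.abv (algebraMap k E c)) →
        (∀ w : Place E, Ab w v → w.abv (x - 1) < w.abv (algebraMap k E c)) ∧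
        ∀ ω : Place F, Ab ω v → ω.abv (2 - 2 * p0) < ω.abv (algebraMap k F c) := by
  have i1 := hSC.fin
  have i2 := hSC.cen
  obtain ⟨σ1, h1⟩ := exists_sig1 hSC hdC hθn (by
    apply h.inj
    rw [h.star, hθ, star_mul, hjs, neg_mul_neg])
  obtain ⟨σ2, h2⟩ := exists_sig2 h hSC hdC hθn hj0 hjt hθ
  obtain ⟨ψ, hψι, hk, hψβ⟩ := exists_psi h hθ fr.jj hgen
  obtain ⟨ν, hν⟩ : ∃ ν : K', ν = kk k K K' p + kk k K K' u * om K' s T := ⟨_, rfl⟩
  have hinj : Function.Injective (jC.comp (φ : E →+* C)) := h.inj.comp φ.injective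
  have jν : jC (algebraMap K' C ν) =
      algebraMap k D p + algebraMap k D u * (algebraMap K D s * t) := by
    rw [hν]
    exact jC_nu h p u
  have hstarK : ∀ c : K', star (algebraMap K' C c) = algebraMap K' C (star c) := fun c =>
    star_algF hSC c
  have jνs : jC (algebraMap K' C (star ν)) =
      algebraMap k D p - algebraMap k D u * (algebraMap K D s * t) := by
    rw [← hstarK, h.star, jν, star_pu hS ht]
  have hν1 : ν * star ν = 1 := by
    apply (algebraMap K' C).injective
    apply h.inj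
    rw [map_mul, map_mul, jν, jνs, pu_mul hS ht hpu, map_one, map_one]
  have hν0 : ν ≠ 0 := left_ne_zero_of_mul_eq_one hν1
  have hν2 : jC (algebraMap K' C (star ν)) = j * jC (algebraMap K' C ν) * j⁻¹ := by
    rw [jνs, jν, conj_pu hj0 hjt]
  have hst : star ν = ν⁻¹ := eq_inv_of_mul_eq_one_right hν1
  obtain ⟨n, hn⟩ : ∃ n : E, n = algebraMap K' E ν := ⟨_, rfl⟩
  have hnσ1 : σ1 n = n⁻¹ := by
    apply phi_ext (φ := φ)
    rw [h1, hn, AlgHom.commutes, hstarK, hst, ← map_inv₀, AlgHom.commutes]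
  have hnσ2 : σ2 n = n⁻¹ := hinj (by
    change jC (φ _) = jC (φ _)
    rw [h2, hn, AlgHom.commutes, ← hν2, hst, ← map_inv₀, AlgHom.commutes])
  have h11 := sig1_sig1 (φ := φ) h1
  have h22 := sig2_sig2 h hj0 hθ h2
  have h12 := sig_comm h hj0 hjs hθ h1 h2
  obtain ⟨x, hx⟩ : ∃ x : E, x = yy σ1 σ2 n e := ⟨_, rfl⟩
  have hx1 : σ1 x = x⁻¹ := by
    rw [hx]
    exact sig1_yy h11 h12 hnσ1
  have hx2 : σ2 x = x⁻¹ := by
    rw [hx]
    exact sig2_yy h22 hnσ2
  have hfin : Module.Finite K' E := Module.finite_of_finrank_pos (by rw [hE]; norm_num)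
  have he0 : e ≠ 0 := by
    intro h0
    rw [h0, Algebra.norm_zero] at he
    exact hν0 (hν.trans he.symm)
  have hn0 : n ≠ 0 := by
    rw [hn]
    exact (_root_.map_ne_zero _).mpr hν0
  have hx0 : x ≠ 0 := by
    have g1 : σ1 e ≠ 0 := (_root_.map_ne_zero σ1).mpr he0
    have g2 : σ2 e ≠ 0 := (_root_.map_ne_zero σ2).mpr he0
    have g3 : σ2 (σ1 e) ≠ 0 := (_root_.map_ne_zero σ2).mpr g1
    rw [hx, yy]
    exact mul_ne_zero (mul_ne_zero (mul_ne_zero (mul_ne_zero he0 g3) (inv_ne_zero g1))
      (inv_ne_zero g2)) (inv_ne_zero hn0)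
  obtain ⟨p0, p1, hq, hp0⟩ := exists_fix hS h hSC hdC hθn hψι hk hψβ fr ht hj0 hjt h1 h2 hx1 hx2
    hx0
  have hnrd : CC.N (φ x) = ν := by
    rw [hx, hn]
    exact N_yy h hSC hdC CC h1 h2 hj0 hjt hν0 hν1 hν2 ((N_norm CC hE φ e).trans
      (he.trans hν.symm))
  have hkφ : ∀ c : k, jC (φ (algebraMap k E c)) = algebraMap k D c := by
    intro c
    rw [hkE, AlgHom.commutes, kk, RingHom.comp_apply, h.jK, ← IsScalarTower.algebraMap_apply]
  obtain ⟨τ1, hτ1⟩ := exists_aut (k := k) σ1 h11 (fun c => hinj (by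
    change jC (φ _) = jC (φ _)
    rw [h1, h.star, hkφ, star_algkF hS]))
  obtain ⟨τ2, hτ2⟩ := exists_aut (k := k) σ2 h22 (fun c => hinj (by
    change jC (φ _) = jC (φ _)
    rw [h2, hkφ, ← Algebra.commutes, mul_assoc, mul_inv_cancel₀ hj0, mul_one]))
  refine ⟨x, p0, p1, hν ▸ hnrd, ?_, hq, ?_⟩
  · rw [← h1, hx1, ← map_mul, mul_inv_cancel₀ hx0, map_one]
  intro v c hc hp hen
  have hxn : ∀ w : Place E, Ab w v → w.abv (x - 1) < w.abv (algebraMap k E c) := by
    intro w hw
    have hγ : w.abv (algebraMap k E c) ≤ 1 := hw.le_one_iff.mpr hc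
    have c1 := near_autF τ1 hen
    have c2 := near_autF τ2 hen
    have c12 := near_autF τ2 c1
    have d1 := c1 w hw
    have d2 := c2 w hw
    have d12 := c12 w hw
    rw [hτ1] at d1
    rw [hτ2] at d2
    rw [hτ2, hτ1] at d12
    have dn : w.abv (n - 1) < w.abv (algebraMap k E c) := by
      have hI : algebraMap K' E (om K' s T) * algebraMap K' E (om K' s T) =
          algebraMap k E (a * d : k) := by
        rw [← map_mul, om_sq hS h, hkE]
      have g1 := nu_nearF hpu hI hw hc hp
      have g2 : n = algebraMap k E p + algebraMap k E u * algebraMap K' E (om K' s T) := by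
        rw [hn, hν, map_add, map_mul, hkE, hkE]
      rw [g2]
      exact g1
    rw [hx, yy]
    exact H511.FF.close_mul _ hγ (H511.FF.close_mul _ hγ (H511.FF.close_mul _ hγ
      (H511.FF.close_mul _ hγ (hen w hw) d12) (H511.FF.close_inv _ hγ d1))
      (H511.FF.close_inv _ hγ d2)) (H511.FF.close_inv _ hγ dn)
  refine ⟨hxn, fun ω hω => ?_⟩
  let _ : Algebra F E := ψ.toAlgebra
  have hFE : ∀ y : F, algebraMap F E y = ψ y := fun y => rfl
  have htow : IsScalarTower k F E := IsScalarTower.of_algebraMap_eq fun c => by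
    rw [hFE, hk, hkE]
  have hfinFE : Module.Finite F E := by
    classical
    refine ⟨⟨{1, algebraMap K' E (algebraMap K K' s), algebraMap K' E (algebraMap L K' T),
      algebraMap K' E (algebraMap K K' s) * algebraMap K' E (algebraMap L K' T)}, ?_⟩⟩
    rw [eq_top_iff]
    rintro z -
    obtain ⟨a0, a1, a2, a3, rfl⟩ := exists_rep hS h hSC hdC hθn hk hψβ z
    have e1 : ψ a0 = a0 • (1 : E) := by rw [Algebra.smul_def, hFE, mul_one]
    have e2 : ∀ (b : F) (y : E), ψ b * y = b • y := fun b y => by rw [Algebra.smul_def, hFE]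
    rw [e1, e2, e2, e2]
    refine Submodule.add_mem _ (Submodule.add_mem _ (Submodule.add_mem _ ?_ ?_) ?_) ?_ <;>
      refine Submodule.smul_mem _ _ (Submodule.subset_span ?_) <;> simp
  have halg : Algebra.IsAlgebraic F E := Algebra.IsAlgebraic.of_finite F E
  obtain ⟨w, hw⟩ := H511.FF.exists_above_ab (K := E) ω
  have hwv : Ab w v := H511.FF.ab_trans hw hω
  have hγ : w.abv (algebraMap k E c) ≤ 1 := hwv.le_one_iff.mpr hc
  rw [← H511.FF.ab_lt_iff hw, ← IsScalarTower.algebraMap_apply, hFE, hp0, map_mul]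
  have g1 := hxn w hwv
  have g2 := H511.FF.close_inv _ hγ g1
  rw [w.abv.map_sub] at g1 g2
  exact (mul_le_of_le_one_right (w.abv.nonneg _) (g2.le.trans hγ)).trans_lt g1

/-- **The projection, from local norms**: the Hasse norm theorem with approximation and the
projection. -/
theorem exists_y_of_locF [GFF k] [GFF K'] [Algebra k K'] [IsScalarTower k K K']
    (hS : SetF k K D d s)
    (hSC : SetF L K' C (incF k L d) (algebraMap K K' s)) (h : IsCentF k K D L K' C t a T jC)
    (hdC : finrank K' C = 3 ^ 2) (ht : t ∈ XaF D a) (CC : Cub K' C) (h3 : (3 : k) ≠ 0)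
    (hj0 : j ≠ 0) (hjs : star j = -j)
    (hjt : j * t = -(t * j)) (hkE : ∀ c : k, algebraMap k E c = algebraMap K' E (kk k K K' c))
    (hE : finrank K' E = 3) (hθ : jC (φ θ) = j * j) (hθn : φ θ ∉ Set.range (algebraMap K' C))
    (fr : QFrF ι (incF k F (a * d)) β (algebraMap K D s * t) j)
    (hgen : ∀ x : F, ∃ p : k[X], x = aeval (β : F) p) {p u : k}
    (hpu : p ^ 2 - (a * d : k) * u ^ 2 = 1)
    (hloc : ∀ V : Place K', ∃ e : E,
      V.abv ((kk k K K' p + kk k K K' u * om K' s T) / Algebra.norm K' e - 1) < 1)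
    {S : Set (Place k)} (hSf : S.Finite) (c : Place k → k)
    (hc : ∀ v ∈ S, c v ≠ 0 ∧ v.abv (c v) ≤ 1)
    (hp : ∀ v ∈ S, v.abv (p - 1) < v.abv (c v ^ 2)) :
    ∃ (x : E) (p0 p1 : F), CC.N (φ x) = kk k K K' p + kk k K K' u * om K' s T ∧
      φ x * star (φ x) = 1 ∧
      QEltF ι (incF k F (a * d)) β (algebraMap K D s * t) j p0 p1 0 0 (jC (φ x)) ∧
      ∀ v ∈ S, (∀ w : Place E, Ab w v → w.abv (x - 1) < w.abv (algebraMap k E (c v))) ∧
        ∀ ω : Place F, Ab ω v → ω.abv (2 - 2 * p0) < ω.abv (algebraMap k F (c v)) := by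
  classical
  have hkK : ∀ c : k, algebraMap k K' c = kk k K K' c := fun c =>
    IsScalarTower.algebraMap_apply k K K' c
  have jν : jC (algebraMap K' C (kk k K K' p + kk k K K' u * om K' s T)) =
      algebraMap k D p + algebraMap k D u * (algebraMap K D s * t) := jC_nu h p u
  have hν0 : kk k K K' p + kk k K K' u * om K' s T ≠ 0 := by
    intro h0
    rw [h0, map_zero, map_zero] at jν
    have h1 := pu_mul hS ht hpu
    rw [← jν, zero_mul] at h1
    exact zero_ne_one h1
  have htow : IsScalarTower k K' E := IsScalarTower.of_algebraMap_eq fun c => by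
    rw [hkK, hkE]
  have hfK : Module.Finite k K' := finite_kK' hS h
  have hfE : Module.Finite K' E := Module.finite_of_finrank_pos (by rw [hE]; norm_num)
  have haK : Algebra.IsAlgebraic k K' := Algebra.IsAlgebraic.of_finite k K'
  have haE : Algebra.IsAlgebraic K' E := Algebra.IsAlgebraic.of_finite K' E
  have h3' : ((3 : ℕ) : K') ≠ 0 := by
    rw [← map_natCast (algebraMap k K')]
    exact (_root_.map_ne_zero _).mpr (by exact_mod_cast h3)
  choose bl hbl using fun V : Place K' => H511.FF.exists_below_ab (k := k) V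
  have hblS : ∀ V ∈ {V : Place K' | ∃ v ∈ S, Av' V v}, bl V ∈ S := by
    rintro V ⟨v, hv, hV⟩
    rwa [below_unique (hbl V) (H511.FF.ab_of_av hV)]
  obtain ⟨e, he, hen⟩ := H511.FF.hasse_norm_approxF Nat.prime_three hE h3'
    (Units.mk0 _ hν0) (fun V => by
      obtain ⟨e, he⟩ := hloc V
      exact ⟨e, by rw [Units.val_mk0]; exact he⟩)
    (H511.FF.above_finite (K := K') hSf) (fun V => algebraMap k K' (c (bl V)))
    (fun V hV => by
      obtain ⟨h1, h2⟩ := hc _ (hblS V hV)
      exact ⟨(_root_.map_ne_zero _).mpr h1, (hbl V).le_one_iff.mpr h2⟩)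
    (fun V hV => by
      obtain ⟨h1, h2⟩ := hc _ (hblS V hV)
      have hI : om K' s T * om K' s T = algebraMap k K' (a * d : k) := by
        rw [om_sq hS h, hkK]
      have g1 := nu_nearF (c := c (bl V)) hpu hI (hbl V) h2 (hp _ (hblS V hV))
      rw [Units.val_mk0, ← hkK, ← hkK]
      exact g1)
  rw [Units.val_mk0] at he
  obtain ⟨x, p0, p1, hx1, hx2, hx3, hx4⟩ := exists_yF hS hSC h hdC ht CC hj0 hjs hjt hkE hE hθ hθn
    fr hgen hpu he
  refine ⟨x, p0, p1, hx1, hx2, hx3, fun v hv => ?_⟩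
  obtain ⟨h1, h2⟩ := hc v hv
  refine hx4 v (c v) h2 (hp v hv) fun w hw => ?_
  obtain ⟨V, hV⟩ := H511.FF.exists_below_ab (k := K') w
  obtain ⟨v', hv'⟩ := H511.FF.exists_below_ab (k := k) V
  obtain rfl := below_unique hw (H511.FF.ab_trans hV hv')
  have g2 := hen V ⟨v, hv, H511.FF.av_of_ab hv'⟩ w hV
  rwa [below_unique (hbl V) hv', ← IsScalarTower.algebraMap_apply] at g2

end near

end main

end Vale.Agent.P011.H976.FF
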